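import Vale.Agent.P201.Z.Defs

/-!
P201, PLAN B for `StmtGlob` (architect helper819): planarity is `H¹(F₂) = 0` of the gluing.
See `PLANB.md` in this folder.  No planar complexes, no Euler characteristic, no minimal expressions.
-/

namespace Vale.Agent.P201.Z.H

open Finset

/-! ## 1. Elimination of pairs -/

/-- `μ` is a fixed point free involution of the finite set `A` -/
structure Inv {D : Type} (A : Finset D) (μ : D → D) : Prop where
  mem : ∀ d ∈ A, μ d ∈ A
  inv : ∀ d ∈ A, μ (μ d) = d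
  ne : ∀ d ∈ A, μ d ≠ d

/-- all entries of a list of pairs -/
def ent {D : Type} (P : List (D × D)) : List D := P.flatMap (fun x => [x.1, x.2])

/-- LEAF H1 (elimination of a list of pairs) -/
def StmtElim : Prop := ∀ (D : Type) [DecidableEq D] (A : Finset D) (μ : D → D), Inv A μ →
  ∀ P : List (D × D), (ent P).Nodup → (∀ x ∈ ent P, x ∈ A) →
  ∃ μ' : D → D, Inv (A \ (ent P).toFinset) μ' ∧
    (∀ (V : Type) (st en : D → V), (∀ d ∈ A, st (μ d) = en d) →
      (∀ x ∈ P, st x.2 = en x.1 ∧ en x.2 = st x.1) →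
      ∀ d ∈ A \ (ent P).toFinset, st (μ' d) = en d) ∧
    (∀ a : D → ZMod 2, (∀ d ∈ A \ (ent P).toFinset, a (μ' d) = a d) →
      ∃ a' : D → ZMod 2, (∀ d ∈ A \ (ent P).toFinset, a' d = a d) ∧
        (∀ d ∈ A, a' (μ d) = a' d) ∧ ∀ x ∈ P, a' x.1 = a' x.2)

/-! ## 2. Maps -/

/-- `Pth U stp c l c'`: starting from the value `c` the darts of `l` are read one after the other,
`U` is the value before the dart, `stp d` the effect of the dart, `c'` the final value. -/
def Pth {D V : Type} (U : D → V) (stp : D → V → V) : V → List D → V → Prop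
  | c, [], c' => c = c'
  | c, d :: l, c' => U d = c ∧ Pth U stp (stp d c) l c'

variable {p : Pat} {n : ℕ}

/-- letter in the group -/
noncomputable def gl (σ : Equiv.Perm (Cel p n)) (a : Let p n × Bool) : Gp σ :=
  PresentedGroup.mk (rels σ) (FreeGroup.mk [a])

/-- A closed map: relator faces `s : S`, one outer face; the darts in `A` are glued by `μ`.
`H1` = every `F₂`-cocycle has potentials (planarity). -/
structure Mp (σ : Equiv.Perm (Cel p n)) where
  S : Type
  [fS : Fintype S]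
  [dS : DecidableEq S]
  q : S → Port p n
  D : Type
  [dD : DecidableEq D]
  A : Finset D
  face : S → List D
  out : List D
  act : ∀ d, d ∈ A ↔ d ∈ out ∨ ∃ s, d ∈ face s
  once : ∀ d, out.count d + ∑ s, (face s).count d ≤ 1
  lt : D → Let p n × Bool
  μ : D → D
  inv : Inv A μ
  lab : ∀ d ∈ A, lt (μ d) = ((lt d).1, !(lt d).2)
  sq : ∀ s, (face s).map lt = relw σ (q s)
  H1 : ∀ a : D → ZMod 2, (∀ d ∈ A, a (μ d) = a d) → (∀ s, ((face s).map a).sum = 0) →
    (out.map a).sum = 0 →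
    ∃ U : D → ZMod 2, (∀ d ∈ A, U (μ d) = U d + a d) ∧
      (∀ s, ∃ c, Pth U (fun d c => c + a d) c (face s) c) ∧
      (∃ c, Pth U (fun d c => c + a d) c out c)
  Γ : D → Gp σ
  base : S → Gp σ
  Γμ : ∀ d ∈ A, Γ (μ d) = Γ d * gl σ (lt d)
  Γface : ∀ s, Pth Γ (fun d c => c * gl σ (lt d)) (base s) (face s) (base s)
  Γout : Pth Γ (fun d c => c * gl σ (lt d)) 1 out 1

attribute [instance] Mp.fS Mp.dS Mp.dD

namespace Mp

variable {σ : Equiv.Perm (Cel p n)} (M : Mp σ)

/-- outer word -/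
def ow : List (Let p n × Bool) := M.out.map M.lt

noncomputable def chn : Chn σ := ∑ s, pch σ (M.base s) (M.q s)

end Mp

/-- reduced word -/
noncomputable def tow {A : Type} (u : FreeGroup A) : List (A × Bool) :=
  @FreeGroup.toWord A (Classical.decEq A) u

/-- LEAF H2: maps from expressions. (`Expr.cons`: add to the outer word, at its end,
`v ++ winv (relw q) ++ winv v`, the two copies of `v` glued to each other, the letters of
`winv (relw q)` glued to the new face; then free reduction of the outer word, every step is one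
elimination `StmtElim` with one pair.) -/
def StmtMp : Prop := ∀ (p : Pat) (n : ℕ) (σ : Equiv.Perm (Cel p n)) (k : ℕ)
  (u : FreeGroup (Let p n)) (z : Chn σ), Expr σ k u z →
  ∃ M : Mp σ, Fintype.card M.S = k ∧ M.ow = tow u⁻¹ ∧ M.chn = z

/-- LEAF H3: removal of a mirror pair. -/
def StmtMir : Prop := ∀ (p : Pat) (n : ℕ) (σ : Equiv.Perm (Cel p n)) (M : Mp σ) (s1 s2 : M.S)
  (i : ℕ) (d d' : M.D), M.q s2 = mt σ (M.q s1) → (M.face s1)[i]? = some d →
  (M.face s2).reverse[i]? = some d' → M.μ d = d' →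
  ∃ M' : Mp σ, Fintype.card M'.S + 2 = Fintype.card M.S ∧ M'.ow = M.ow ∧ M'.chn = M.chn

/-! ## 3. Closed gluings of squares -/

/-- planarity of a closed gluing: `ax s` = value of the start x-side of `s` (glued to the end x-side
of `X s`), `ay s` = value of the end y-side of `s` (glued to the start y-side of `Y s`);
`uo`, `ue`, `um` = values at the o-corner, e-corner, start m-corner of `s`. -/
def HP {T : Type} (X Y : Equiv.Perm T) : Prop :=
  ∀ ax ay : T → ZMod 2, (∀ s, ax s + ax (X.symm s) + ay s + ay (Y.symm s) = 0) →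
    ∃ uo um ue : T → ZMod 2, (∀ s, uo (X s) = uo s) ∧ (∀ s, ue (Y s) = ue s) ∧
      (∀ s, um (Y (X s)) = um s) ∧ (∀ s, ax s = uo s + um s) ∧ (∀ s, ay s = um (Y s) + ue s)

section closed

variable {T : Type} [Fintype T] [DecidableEq T]

/-- squares glued along a side -/
def Adj (X Y : Equiv.Perm T) (s t : T) : Prop := X s = t ∨ X t = s ∨ Y s = t ∨ Y t = s

/-- dual connectedness of a set -/
def ConnOn (X Y : Equiv.Perm T) (C : Finset T) : Prop :=
  ∀ s ∈ C, ∀ t ∈ C, Relation.ReflTransGen (fun a b => b ∈ C ∧ Adj X Y a b) s t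

/-- sets with nonempty connected complement -/
def DD (X Y : Equiv.Perm T) (C : Finset T) : Prop :=
  (univ \ C).Nonempty ∧ ConnOn X Y (univ \ C)

/-- restriction of a permutation to a set, as a partial injection -/
def restr (X : Equiv.Perm T) (C : Finset T) : {s // s ∈ C} ≃. {s // s ∈ C} where
  toFun s := if h : X s ∈ C then some ⟨X s, h⟩ else none
  invFun s := if h : X.symm s ∈ C then some ⟨X.symm s, h⟩ else none
  inv := by
    intro a b
    constructor
    · intro h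
      by_cases h1 : X.symm (b : T) ∈ C
      · rw [dif_pos h1] at h
        have h2 : X.symm (b : T) = a := congrArg Subtype.val (Option.some.inj h)
        have h3 : X (a : T) = b := by rw [← h2]; simp
        have h4 : X (a : T) ∈ C := by rw [h3]; exact b.2
        rw [dif_pos h4]
        exact congrArg some (Subtype.ext h3)
      · rw [dif_neg h1] at h; simp at h
    · intro h
      by_cases h1 : X (a : T) ∈ C
      · rw [dif_pos h1] at h
        have h2 : X (a : T) = b := congrArg Subtype.val (Option.some.inj h)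
        have h3 : X.symm (b : T) = a := by rw [← h2]; simp
        have h4 : X.symm (b : T) ∈ C := by rw [h3]; exact a.2
        rw [dif_pos h4]
        exact congrArg some (Subtype.ext h3)
      · rw [dif_neg h1] at h; simp at h

/-- first `X`, then `Y` -/
def XY {T : Type} (X Y : Equiv.Perm T) : Equiv.Perm T := X.trans Y

/-- number of missing values = boundary sides -/
def bd (X : Equiv.Perm T) (C : Finset T) : ℕ := (C.filter (fun s => X s ∉ C)).card

end closed

/-- LEAF H6a (Euler inequality for discs, by dimension count) -/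
def StmtEul : Prop := ∀ (T : Type) [Fintype T] [DecidableEq T] (X Y : Equiv.Perm T), HP X Y →
  ∀ C : Finset T, C.Nonempty → DD X Y C →
    domc (restr X C) + domc (restr Y C) + 1 ≤ C.card + cyc (restr X C) + cyc (restr Y C) +
      cyc ((restr X C).trans (restr Y C))

/-- LEAF H6b (closed case) -/
def StmtEulU : Prop := ∀ (T : Type) [Fintype T] [DecidableEq T] (X Y : Equiv.Perm T), HP X Y →
    domc (restr X univ) + domc (restr Y univ) ≤ Fintype.card T + cyc (restr X univ) +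
      cyc (restr Y univ) + cyc ((restr X univ).trans (restr Y univ))

/-! ## 4. Isoperimetry -/

/-- Depth system: `fo, fm, fe` = weighted depth of the o-vertex, start m-vertex, e-vertex of `s`;
every vertex surrounded by `C` has an edge to a vertex of smaller depth. -/
structure Dep {T : Type} (X Y : Equiv.Perm T) (C : Finset T) (W r : ℕ) where
  fo : T → ℕ
  fm : T → ℕ
  fe : T → ℕ
  oinv : ∀ s, fo (X s) = fo s
  einv : ∀ s, fe (Y s) = fe s
  minv : ∀ s, fm (Y (X s)) = fm s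
  odec : ∀ s, (∀ t, X.SameCycle s t → t ∈ C) → ∃ t, X.SameCycle s t ∧ fo s = fm t + 1
  edec : ∀ s, (∀ t, Y.SameCycle s t → t ∈ C) → ∃ t, Y.SameCycle s t ∧ fe s = fm t + W
  mdec : ∀ s, (∀ t, (XY X Y).SameCycle s t → t ∈ C ∧ X t ∈ C) →
    ∃ t, (XY X Y).SameCycle s t ∧ (fm s = fo t + 1 ∨ fm s = fe t + W)
  bo : ∀ s ∈ C, fo s ≤ r
  bm : ∀ s ∈ C, fm s ≤ r
  be : ∀ s ∈ C, fe s ≤ r

/-- LEAF H8 (tree/cotree cut) -/
def StmtCut : Prop := ∀ (T : Type) [Fintype T] [DecidableEq T] (X Y : Equiv.Perm T), HP X Y →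
  ConnOn X Y univ →
  ∀ (C : Finset T) (W r : ℕ), 1 ≤ W → DD X Y C → ConnOn X Y C → 2 ≤ C.card → Dep X Y C W r →
    ∃ A B : Finset T, A ∪ B = C ∧ Disjoint A B ∧ ConnOn X Y A ∧ ConnOn X Y B ∧
      C.card ≤ 8 * A.card ∧ C.card ≤ 8 * B.card ∧
      (C.filter (fun s => X s ∈ C ∧ (s ∈ A ↔ X s ∈ B))).card +
        W * (C.filter (fun s => Y s ∈ C ∧ (s ∈ A ↔ Y s ∈ B))).card ≤ 2 * r + W

/-- LEAF H9 (layers give a depth system); `e` = isoperimetric constant of the proper subsets -/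
def StmtDep : Prop := ∀ (T : Type) [Fintype T] [DecidableEq T] (X Y : Equiv.Perm T),
  ConnOn X Y univ →
  ∀ (C : Finset T) (W : ℕ) (e : ℝ), 1 ≤ W → 0 < e → e ≤ 1 → DD X Y C → W ≤ C.card →
    (∀ C' ⊆ C, C' ≠ C → C'.Nonempty → DD X Y C' →
      e * (C'.card : ℝ) ≤ (bd X C' : ℝ) + W * (bd Y C' : ℝ)) →
    ∃ r : ℕ, Nonempty (Dep X Y C W r) ∧
      (r : ℝ) ≤ (W : ℝ) * (20 + (4 / e) * Real.log ((C.card : ℝ) / W))

/-- LEAF H10 (isoperimetry, from Cut and Dep, by induction on subsets) -/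
def StmtIso : Prop := ∀ e1 : ℝ, 0 < e1 → e1 ≤ 1 → ∃ K0 : ℕ, ∀ K : ℕ, K0 ≤ K → ∀ (W : ℕ), 1 ≤ W →
  ∀ (T : Type) [Fintype T] [DecidableEq T] (X Y : Equiv.Perm T), HP X Y → ConnOn X Y univ →
  ∀ C0 : Finset T, DD X Y C0 →
    (∀ C ⊆ C0, C.Nonempty → DD X Y C → C.card ≤ K * W →
      e1 * (C.card : ℝ) ≤ (bd X C : ℝ) + W * (bd Y C : ℝ)) →
    (e1 / 2) * (C0.card : ℝ) ≤ (bd X C0 : ℝ) + W * (bd Y C0 : ℝ)

/-! ## 5. Gluings with ports and labels -/

/-- Connected closed gluing of squares; `O` = outer elements (at most one in the applications). -/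
structure Gd (σ : Equiv.Perm (Cel p n)) where
  T : Type
  [fT : Fintype T]
  [dT : DecidableEq T]
  X : Equiv.Perm T
  Y : Equiv.Perm T
  ε : T → Port p n
  O : Finset T
  hp : HP X Y
  conn : ConnOn X Y univ
  rx : ∀ s, s ∉ O → X s ∉ O → rc (ε s) = rc (mt σ (ε (X s))) ∧ ε s ≠ mt σ (ε (X s))
  ry : ∀ s, s ∉ O → Y s ∉ O → blk (mt σ (ε s)).1 = blk (ε (Y s)).1 ∧ ε (Y s) ≠ mt σ (ε s)
  lab : ∃ E : T → Prop, (∀ s s', E s → E s' → (XY X Y).SameCycle s s') ∧
    ∀ s, (∀ t, (XY X Y).SameCycle s t → t ∉ O ∧ X t ∉ O) → ¬ E s →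
      ∀ F : Finset T, (∀ t, t ∈ F ↔ (XY X Y).SameCycle s t) →
        ∑ t ∈ F, (ht (mt σ (ε (X t))).1 - ht (ε (Y (X t))).1) = 0

attribute [instance] Gd.fT Gd.dT

/-- LEAF H7 (local inequality for subsets of a `Gd`; uses `StmtEul`, `StmtEulU`) -/
def StmtLocG : Prop := ∀ (p : Pat) (n : ℕ) (σ : Equiv.Perm (Cel p n)) (G : Gd σ) (M W : ℕ) (e1 : ℝ),
  LocIso σ M W e1 →
    (∀ C : Finset G.T, Disjoint C G.O → C.Nonempty → DD G.X G.Y C → C.card ≤ M →
      e1 * (C.card : ℝ) ≤ (bd G.X C : ℝ) + W * (bd G.Y C : ℝ)) ∧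
    (G.O = ∅ → Fintype.card G.T ≤ M → e1 * (Fintype.card G.T : ℝ) ≤ 0)

/-- no mirror pairs -/
def NoMir {σ : Equiv.Perm (Cel p n)} (M : Mp σ) : Prop :=
  ∀ (s1 s2 : M.S) (i : ℕ) (d d' : M.D), M.q s2 = mt σ (M.q s1) → (M.face s1)[i]? = some d →
    (M.face s2).reverse[i]? = some d' → M.μ d ≠ d'

def isx : Let p n → Bool
  | .x _ _ => true
  | _ => false

/-- the outer word has no y-letter and at most one x-letter of each sign -/
def Out2 {σ : Equiv.Perm (Cel p n)} (M : Mp σ) : Prop :=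
  (∀ a ∈ M.ow, ∀ j, a.1 ≠ Let.y j) ∧ (M.ow.filter (fun a => isx a.1 && a.2)).length ≤ 1 ∧
    (M.ow.filter (fun a => isx a.1 && !a.2)).length ≤ 1

/-- the gluing permutations of a map -/
structure Ext {σ : Equiv.Perm (Cel p n)} (M : Mp σ) where
  xs : M.S → M.D
  xe : M.S → M.D
  ys : M.S → M.D
  ye : M.S → M.D
  ts : M.S → List M.D
  te : M.S → List M.D
  X : Equiv.Perm (Option M.S)
  Y : Equiv.Perm (Option M.S)
  hf : ∀ s, M.face s = xs s :: (ts s ++ (ys s :: ye s :: (te s ++ [xe s])))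
  lxs : ∀ s, M.lt (xs s) = (Let.x (row (M.q s).1) (M.q s).2, true)
  lts : ∀ s, (ts s).map M.lt = tw p n (ht (M.q s).1)
  lys : ∀ s, M.lt (ys s) = (Let.y (blk (M.q s).1), true)
  lye : ∀ s, M.lt (ye s) = (Let.y (blk (mt σ (M.q s)).1), false)
  lte : ∀ s, (te s).map M.lt = winv (tw p n (ht (mt σ (M.q s)).1))
  lxe : ∀ s, M.lt (xe s) = (Let.x (row (mt σ (M.q s)).1) (mt σ (M.q s)).2, false)
  Yn : Y none = none
  Xs : ∀ s s', X (some s) = some s' ↔ M.μ (xs s) = xe s'
  Ys : ∀ s s', Y (some s) = some s' ↔ M.μ (ye s) = ys s'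
  Xo : ∀ s, X (some s) = none → M.μ (xs s) ∈ M.out
  Xi : ∀ s, X none = some s → M.μ (xe s) ∈ M.out
  hp : HP X Y

/-- LEAF H4 -/
def StmtExt : Prop := ∀ (p : Pat) (n : ℕ) (σ : Equiv.Perm (Cel p n)) (M : Mp σ), Out2 M →
  Nonempty (Ext M)

/-- LEAF H5 (outer word a power of `t` or empty; forest argument: some component has at most one
exceptional label). -/
def StmtT : Prop := ∀ (p : Pat) (n : ℕ) (σ : Equiv.Perm (Cel p n)) (M : Mp σ), NoMir M →
  (∀ a ∈ M.ow, a.1 = Let.t) → Nonempty M.S → ∃ G : Gd σ, G.O = ∅ ∧ Nonempty G.T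

/-- `t` has infinite order in the group -/
def tinf (σ : Equiv.Perm (Cel p n)) : Prop :=
  ∀ m : ℤ, m ≠ 0 → PresentedGroup.mk (rels σ) (val (tw p n m)) ≠ 1

/-- LEAF H5x (two x-letters outside; labels vanish because `t` has infinite order, by `Γ`) -/
def StmtX : Prop := ∀ (p : Pat) (n : ℕ) (σ : Equiv.Perm (Cel p n)) (M : Mp σ), NoMir M → tinf σ →
  Out2 M → Nonempty M.S → (∃ G : Gd σ, G.O = ∅ ∧ Nonempty G.T) ∨
    ∃ (G : Gd σ) (o : G.T), G.O = {o} ∧ G.Y o = o ∧ 2 ≤ Fintype.card G.T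

/-- LEAF H5e (no relator) -/
def StmtE : Prop := ∀ (p : Pat) (n : ℕ) (σ : Equiv.Perm (Cel p n)) (M : Mp σ), tinf σ →
  Out2 M → IsEmpty M.S → (∃ u : FreeGroup (Let p n), M.ow = tow u) → M.ow = []

/-- LEAF H0: kernel elements have expressions -/
def StmtKer : Prop := ∀ (p : Pat) (n : ℕ) (σ : Equiv.Perm (Cel p n)) (u : FreeGroup (Let p n)),
  PresentedGroup.mk (rels σ) u = 1 → ∃ k z, Expr σ k u z

end Vale.Agent.P201.Z.H
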