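import Vale.Agent.P201.Z.H.Defs

/-!
P201, PLAN B, leaf H5e: maps without relator faces.
-/

namespace Vale.Agent.P201.Z.H

open Finset

namespace E

variable {p : Pat} {n : ℕ}

/-- value of a path in the group -/
theorem pth_val {σ : Equiv.Perm (Cel p n)} {D : Type} (Γ : D → Gp σ) (lt : D → Let p n × Bool)
    (l : List D) : ∀ c c' : Gp σ, Pth Γ (fun d c => c * gl σ (lt d)) c l c' →
      c' = c * PresentedGroup.mk (rels σ) (FreeGroup.mk (l.map lt)) := by
  induction l with
  | nil =>
    intro c c' h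
    have h1 : c = c' := h
    rw [List.map_nil, ← h1, ← FreeGroup.one_eq_mk, map_one, mul_one]
  | cons d l ih =>
    intro c c' h
    obtain ⟨_, h2⟩ := h
    have h3 := ih _ _ h2
    have h4 : (FreeGroup.mk ((d :: l).map lt) : FreeGroup (Let p n)) =
        FreeGroup.mk [lt d] * FreeGroup.mk (l.map lt) := by
      rw [FreeGroup.mul_mk]
      rfl
    rw [h3, h4, map_mul, mul_assoc]
    rfl

/-- the value before a dart of a path -/
theorem pth_split {D V : Type} (U : D → V) (stp : D → V → V) (l1 l2 : List D) :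
    ∀ c c' : V, Pth U stp c (l1 ++ l2) c' → ∃ c1, Pth U stp c l1 c1 ∧ Pth U stp c1 l2 c' := by
  induction l1 with
  | nil => exact fun c c' h => ⟨c, rfl, h⟩
  | cons d l ih =>
    intro c c' h
    obtain ⟨h1, h2⟩ := h
    obtain ⟨c1, h3, h4⟩ := ih _ _ h2
    exact ⟨c1, ⟨h1, h3⟩, h4⟩

/-- a reduced word in `t` is a power of `t` -/
theorem t_word (L : List (Let p n × Bool)) (ht : ∀ a ∈ L, a.1 = Let.t)
    (hr : L.IsChain fun a b => a.1 = b.1 → a.2 = b.2) : ∃ m : ℤ, L = tw p n m := by
  have key : ∀ (L : List (Let p n × Bool)) (b : Bool), (∀ a ∈ L, a.1 = Let.t) →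
      (((Let.t, b) : Let p n × Bool) :: L).IsChain (fun a b => a.1 = b.1 → a.2 = b.2) →
      L = List.replicate L.length (Let.t, b) := by
    intro L
    induction L with
    | nil => exact fun b _ _ => rfl
    | cons a L ih =>
      intro b h1 h2
      have h3 : a.1 = Let.t := h1 a List.mem_cons_self
      rw [List.isChain_cons_cons] at h2
      have h4 : b = a.2 := h2.1 h3.symm
      have h5 : a = (Let.t, b) := Prod.ext h3 h4.symm
      rw [List.length_cons, List.replicate_succ]
      rw [h5] at h2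
      rw [← ih b (fun x hx => h1 x (List.mem_cons_of_mem _ hx)) h2.2, h5]
  cases L with
  | nil => exact ⟨0, rfl⟩
  | cons a L =>
    obtain ⟨x, b⟩ := a
    have h3 : x = Let.t := ht _ List.mem_cons_self
    subst h3
    have h4 := key L b (fun x hx => ht x (List.mem_cons_of_mem _ hx)) hr
    cases b with
    | true =>
      refine ⟨(L.length + 1 : ℕ), ?_⟩
      rw [tw, Int.natAbs_natCast, List.replicate_succ, decide_eq_true (Int.natCast_nonneg _)]
      rw [← h4]
    | false =>
      refine ⟨-(L.length + 1 : ℕ), ?_⟩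
      rw [tw, Int.natAbs_neg, Int.natAbs_natCast, List.replicate_succ,
        decide_eq_false (by push_cast; omega)]
      rw [← h4]

theorem t_word_nil {σ : Equiv.Perm (Cel p n)} (hσ : tinf σ) (L : List (Let p n × Bool))
    (ht : ∀ a ∈ L, a.1 = Let.t) (hr : L.IsChain fun a b => a.1 = b.1 → a.2 = b.2)
    (h1 : PresentedGroup.mk (rels σ) (FreeGroup.mk L) = 1) : L = [] := by
  obtain ⟨m, rfl⟩ := t_word L ht hr
  by_cases hm : m = 0
  · rw [hm]
    rfl
  · exact absurd h1 (hσ m hm)

/-- two different elements of a list -/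
theorem split2 {D : Type} {l : List D} {d d' : D} (hd : d ∈ l) (hd' : d' ∈ l) (hne : d' ≠ d) :
    ∃ e e' l1 l2 l3, ((e = d ∧ e' = d') ∨ (e = d' ∧ e' = d)) ∧ l = l1 ++ e :: (l2 ++ e' :: l3) := by
  obtain ⟨l1, l2, h⟩ := List.append_of_mem hd
  rw [h, List.mem_append, List.mem_cons] at hd'
  rcases hd' with h1 | h1 | h1
  · obtain ⟨l3, l4, h2⟩ := List.append_of_mem h1
    refine ⟨d', d, l3, l4, l2, Or.inr ⟨rfl, rfl⟩, ?_⟩
    rw [h, h2, List.append_assoc, List.cons_append]
  · exact absurd h1 hne
  · obtain ⟨l3, l4, h2⟩ := List.append_of_mem h1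
    exact ⟨d, d', l1, l3, l4, Or.inl ⟨rfl, rfl⟩, by rw [h, h2]⟩

end E

theorem stmtE : StmtE := by
  classical
  intro p n σ M hσ hO hS hu
  have hred : (M.out.map M.lt).IsChain fun a b => a.1 = b.1 → a.2 = b.2 := by
    obtain ⟨u, hu⟩ := hu
    have h1 : M.out.map M.lt = tow u := hu
    rw [h1]
    exact @FreeGroup.isReduced_toWord _ (Classical.decEq _) u
  obtain ⟨hy, hx1, hx2⟩ := hO
  have hmem : ∀ d, d ∈ M.A ↔ d ∈ M.out := fun d =>
    (M.act d).trans ⟨fun h => h.elim id fun ⟨s, _⟩ => hS.elim s, Or.inl⟩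
  have hcase : ∀ a : Let p n × Bool, a ∈ M.ow → isx a.1 = false → a.1 = Let.t := by
    rintro ⟨a, b⟩ ha hx
    cases a with
    | t => rfl
    | x i c => exact absurd hx (by simp [isx])
    | y j => exact absurd rfl (hy _ ha j)
  by_cases hx : ∃ d ∈ M.out, isx (M.lt d).1 = true
  · exfalso
    obtain ⟨d, hd, hdx⟩ := hx
    have hdA := (hmem d).2 hd
    have hd' := (hmem _).1 (M.inv.mem d hdA)
    obtain ⟨e, e', l1, l2, l3, he, hl⟩ := E.split2 hd hd' (M.inv.ne d hdA)
    have heA : e ∈ M.A := by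
      rw [hmem, hl]
      simp
    have hee : M.μ e = e' := by
      rcases he with ⟨h1, h2⟩ | ⟨h1, h2⟩
      · rw [h1, h2]
      · rw [h1, h2, M.inv.inv d hdA]
    have hlab := M.lab e heA
    rw [hee] at hlab
    have hex : isx (M.lt e).1 = true := by
      rcases he with ⟨h1, _⟩ | ⟨h1, _⟩
      · rw [h1]
        exact hdx
      · rw [h1, M.lab d hdA]
        exact hdx
    -- no x-letter in between
    have hl2 : ∀ f ∈ l2, isx (M.lt f).1 = false := by
      intro f hf
      by_contra hfx
      rw [Bool.not_eq_false] at hfx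
      obtain ⟨m1, m2, hm⟩ := List.append_of_mem hf
      have how : M.ow = (l1.map M.lt) ++ M.lt e :: ((m1.map M.lt) ++ M.lt f :: ((m2.map M.lt) ++
          M.lt e' :: (l3.map M.lt))) := by
        rw [Mp.ow, hl, hm]
        simp only [List.map_append, List.map_cons, List.append_assoc, List.cons_append]
      have he'x : isx (M.lt e').1 = true := by
        rw [hlab]
        exact hex
      rw [how] at hx1 hx2
      simp only [List.filter_append, List.filter_cons, List.length_append] at hx1 hx2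
      rw [hex, hfx, he'x] at hx1 hx2
      have he2 : (M.lt e').2 = !(M.lt e).2 := by rw [hlab]
      rw [he2] at hx1 hx2
      rcases Bool.eq_false_or_eq_true (M.lt e).2 with h1 | h1 <;>
        rcases Bool.eq_false_or_eq_true (M.lt f).2 with h2 | h2 <;>
        rw [h1, h2] at hx1 hx2 <;>
        simp at hx1 hx2 <;> omega
    -- the word in between
    have hpath := M.Γout
    rw [hl] at hpath
    obtain ⟨c1, _, h2⟩ := E.pth_split _ _ _ _ _ _ hpath
    obtain ⟨h3, h4⟩ := h2
    obtain ⟨c2, h5, h6⟩ := E.pth_split _ _ _ _ _ _ h4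
    have h7 : M.Γ e' = c2 := h6.1
    have h8 := E.pth_val M.Γ M.lt l2 _ _ h5
    have h9 := M.Γμ e heA
    rw [hee, h7, h8, ← h3] at h9
    have h10 : PresentedGroup.mk (rels σ) (FreeGroup.mk (l2.map M.lt)) = 1 :=
      mul_eq_left.1 h9
    have hsub : ∀ u v w : List M.D, M.out = u ++ (v ++ w) →
        (v.map M.lt).IsChain fun a b => a.1 = b.1 → a.2 = b.2 := by
      intro u v w h
      have h1 := hred
      rw [h, List.map_append, List.map_append] at h1
      exact h1.right_of_append.left_of_append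
    have hred2 : (l2.map M.lt).IsChain fun a b => a.1 = b.1 → a.2 = b.2 :=
      hsub (l1 ++ [e]) l2 (e' :: l3) (by rw [hl]; simp)
    have h11 : l2.map M.lt = [] := by
      refine E.t_word_nil hσ _ (fun a ha => ?_) hred2 h10
      obtain ⟨f, hf, rfl⟩ := List.mem_map.1 ha
      refine hcase _ ?_ (hl2 f hf)
      rw [Mp.ow]
      refine List.mem_map_of_mem ?_
      rw [hl]
      simp [hf]
    have h12 : l2 = [] := List.map_eq_nil_iff.1 h11
    have hred3 : ([M.lt e, M.lt e']).IsChain fun a b => a.1 = b.1 → a.2 = b.2 :=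
      hsub l1 [e, e'] l3 (by rw [hl, h12]; simp)
    rw [List.isChain_pair] at hred3
    have h13 := hred3 (by rw [hlab])
    rw [hlab] at h13
    have h14 : (M.lt e).2 = !(M.lt e).2 := h13
    cases h15 : (M.lt e).2
    · rw [h15] at h14
      exact absurd h14 (by decide)
    · rw [h15] at h14
      exact absurd h14 (by decide)
  · push Not at hx
    have h1 := E.pth_val M.Γ M.lt M.out _ _ M.Γout
    rw [one_mul] at h1
    refine E.t_word_nil hσ _ (fun a ha => hcase a ha ?_) hred h1.symm
    obtain ⟨d, hd, rfl⟩ := List.mem_map.1 ha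
    have := hx d hd
    exact Bool.eq_false_iff.2 this

end Vale.Agent.P201.Z.H
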