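import Vale.Agent.P201.Z.H.Defs

/-!
P201, plan B, leaf H4: the gluing permutations of a map with at most two outer x-letters.
-/

namespace Vale.Agent.P201.Z.H

open Finset

namespace ExtL

/-! ### Paths -/

lemma pth_append {D V : Type} (U : D → V) (stp : D → V → V) :
    ∀ (l₁ l₂ : List D) (c c' : V),
      Pth U stp c (l₁ ++ l₂) c' ↔ ∃ m, Pth U stp c l₁ m ∧ Pth U stp m l₂ c'
  | [], l₂, c, c' => by simp [Pth]
  | d :: l₁, l₂, c, c' => by
      simp only [List.cons_append, Pth, pth_append U stp l₁ l₂]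
      constructor
      · rintro ⟨h, m, h1, h2⟩; exact ⟨m, ⟨h, h1⟩, h2⟩
      · rintro ⟨m, ⟨h, h1⟩, h2⟩; exact ⟨h, m, h1, h2⟩

lemma pth_zero {D V : Type} (U : D → V) (stp : D → V → V) :
    ∀ (l : List D) (c c' : V), (∀ d ∈ l, ∀ c, stp d c = c) → Pth U stp c l c' → c' = c
  | [], c, c', _, h => h.symm
  | d :: l, c, c', h0, h => by
      have h1 := pth_zero U stp l _ _ (fun e he => h0 e (List.mem_cons_of_mem _ he)) h.2
      rw [h1, h0 d (List.mem_cons_self ..)]

lemma letters_tw (p : Pat) (n : ℕ) (h : ℤ) : ∀ a ∈ tw p n h, a.1 = Let.t := by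
  intro a ha
  rw [tw, List.mem_replicate] at ha
  rw [ha.2]

lemma letters_wtw (p : Pat) (n : ℕ) (h : ℤ) : ∀ a ∈ winv (tw p n h), a.1 = Let.t := by
  intro a ha
  rw [winv, List.mem_reverse, List.mem_map] at ha
  obtain ⟨b, hb, rfl⟩ := ha
  exact letters_tw p n h b hb

/-- the shape of a relator face -/
lemma face_shape {D : Type} {p : Pat} {n : ℕ} (σ : Equiv.Perm (Cel p n)) (q : Port p n)
    (lt : D → Let p n × Bool) (f : List D) (h : f.map lt = relw σ q) :
    ∃ (xs xe ys ye : D) (ts te : List D), f = xs :: (ts ++ (ys :: ye :: (te ++ [xe]))) ∧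
      lt xs = (Let.x (row q.1) q.2, true) ∧ ts.map lt = tw p n (ht q.1) ∧
      lt ys = (Let.y (blk q.1), true) ∧ lt ye = (Let.y (blk (mt σ q).1), false) ∧
      te.map lt = winv (tw p n (ht (mt σ q).1)) ∧
      lt xe = (Let.x (row (mt σ q).1) (mt σ q).2, false) := by
  have h1 : relw σ q = (Let.x (row q.1) q.2, true) :: (tw p n (ht q.1) ++
      ((Let.y (blk q.1), true) :: (Let.y (blk (mt σ q).1), false) ::
        (winv (tw p n (ht (mt σ q).1)) ++ [(Let.x (row (mt σ q).1) (mt σ q).2, false)]))) := by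
    simp [relw, half, winv]
  rw [h1] at h
  obtain ⟨xs, f1, hf, hxs, h⟩ := List.map_eq_cons_iff.1 h
  obtain ⟨ts, f2, hf1, hts, h⟩ := List.map_eq_append_iff.1 h
  obtain ⟨ys, f3, hf2, hys, h⟩ := List.map_eq_cons_iff.1 h
  obtain ⟨ye, f4, hf3, hye, h⟩ := List.map_eq_cons_iff.1 h
  obtain ⟨te, f5, hf4, hte, h⟩ := List.map_eq_append_iff.1 h
  obtain ⟨xe, f6, hf5, hxe, h⟩ := List.map_eq_cons_iff.1 h
  rw [List.map_eq_nil_iff] at h
  subst h hf5 hf4 hf3 hf2 hf1 hf
  exact ⟨xs, xe, ys, ye, ts, te, rfl, hxs, hts, hys, hye, hte, hxe⟩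

/-- a partial injection which misses at most one element extends to a permutation of `Option S` -/
lemma exists_perm {S : Type} [Fintype S] [DecidableEq S] (f : S → Option S)
    (hf : Function.Injective f) :
    ∃ X : Equiv.Perm (Option S), ∀ s, X (some s) = f s := by
  classical
  obtain ⟨g, hg⟩ := Finset.exists_equiv_extend_of_card_eq (α := Option S) (β := Option S)
    (t := (Finset.univ : Finset (Option S))) (by simp)
    (s := Finset.univ.image (fun s : S => (some s : Option S)))
    (f := fun o => match o with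
      | none => none
      | some s => f s) (Finset.subset_univ _) (by
      intro a ha b hb hab
      simp only [coe_image, coe_univ, Set.image_univ, Set.mem_range] at ha hb
      obtain ⟨a, rfl⟩ := ha
      obtain ⟨b, rfl⟩ := hb
      exact congrArg some (hf hab))
  refine ⟨g.trans ⟨fun x => x.1, fun x => ⟨x, Finset.mem_univ _⟩, fun x => rfl, fun x => rfl⟩, ?_⟩
  intro s
  exact hg (some s) (by simp)


section

variable {p : Pat} {n : ℕ} {σ : Equiv.Perm (Cel p n)} (M : Mp σ)

lemma out_face {d : M.D} {s : M.S} (h1 : d ∈ M.out) (h2 : d ∈ M.face s) : False := by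
  have h := M.once d
  have h3 : 1 ≤ M.out.count d := List.count_pos_iff.2 h1
  have h4 : 1 ≤ (M.face s).count d := List.count_pos_iff.2 h2
  have h5 : (M.face s).count d ≤ ∑ s, (M.face s).count d :=
    Finset.single_le_sum (f := fun s => (M.face s).count d) (fun _ _ => Nat.zero_le _)
      (Finset.mem_univ s)
  omega

lemma face_face {d : M.D} {s s' : M.S} (h1 : d ∈ M.face s) (h2 : d ∈ M.face s') : s = s' := by
  by_contra hne
  have h := M.once d
  have h3 : 1 ≤ (M.face s).count d := List.count_pos_iff.2 h1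
  have h4 : 1 ≤ (M.face s').count d := List.count_pos_iff.2 h2
  have h5 : ∑ s ∈ {s, s'}, (M.face s).count d ≤ ∑ s, (M.face s).count d :=
    Finset.sum_le_sum_of_subset (Finset.subset_univ _)
  rw [Finset.sum_pair hne] at h5
  omega

lemma out_nodup : M.out.Nodup := by
  rw [List.nodup_iff_count_le_one]
  intro d
  have h := M.once d
  omega

lemma A_out {d : M.D} (h : d ∈ M.out) : d ∈ M.A := (M.act d).2 (Or.inl h)

lemma A_face {d : M.D} {s : M.S} (h : d ∈ M.face s) : d ∈ M.A := (M.act d).2 (Or.inr ⟨s, h⟩)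

lemma mu_inj {d e : M.D} (hd : d ∈ M.A) (he : e ∈ M.A) (h : M.μ d = M.μ e) : d = e := by
  rw [← M.inv.inv d hd, ← M.inv.inv e he, h]

/-- face containing a dart -/
noncomputable def own (d : M.D) : Option M.S := by
  classical
  exact if h : ∃ s, d ∈ M.face s then some h.choose else none

lemma own_face {d : M.D} {s : M.S} (h : d ∈ M.face s) : own M d = some s := by
  have h1 : ∃ s, d ∈ M.face s := ⟨s, h⟩
  unfold own
  rw [dif_pos h1]
  exact congrArg some (face_face M h1.choose_spec h)

lemma own_out {d : M.D} (h : d ∈ M.out) : own M d = none := by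
  have h1 : ¬ ∃ s, d ∈ M.face s := fun ⟨s, hs⟩ => out_face M h hs
  unfold own
  rw [dif_neg h1]

end

theorem stmtExt_aux {p : Pat} {n : ℕ} {σ : Equiv.Perm (Cel p n)} (M : Mp σ) (hO : Out2 M) :
    Nonempty (Ext M) := by
  classical
  choose xs xe ys ye ts te hf lxs lts lys lye lte lxe using
    fun s => face_shape σ (M.q s) M.lt (M.face s) (M.sq s)
  -- membership
  have mxs : ∀ s, xs s ∈ M.face s := fun s => by rw [hf]; simp
  have mxe : ∀ s, xe s ∈ M.face s := fun s => by rw [hf]; simp
  have mys : ∀ s, ys s ∈ M.face s := fun s => by rw [hf]; simp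
  have mye : ∀ s, ye s ∈ M.face s := fun s => by rw [hf]; simp
  have axs : ∀ s, xs s ∈ M.A := fun s => A_face M (mxs s)
  have axe : ∀ s, xe s ∈ M.A := fun s => A_face M (mxe s)
  have ays : ∀ s, ys s ∈ M.A := fun s => A_face M (mys s)
  have aye : ∀ s, ye s ∈ M.A := fun s => A_face M (mye s)
  have tts : ∀ s, ∀ e ∈ ts s, (M.lt e).1 = Let.t := by
    intro s e he
    apply letters_tw p n (ht (M.q s).1)
    rw [← lts s]
    exact List.mem_map_of_mem he
  have tte : ∀ s, ∀ e ∈ te s, (M.lt e).1 = Let.t := by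
    intro s e he
    apply letters_wtw p n (ht (mt σ (M.q s)).1)
    rw [← lte s]
    exact List.mem_map_of_mem he
  -- classification of the darts
  have cl : ∀ d ∈ M.A, d ∈ M.out ∨ (∃ s, d = xs s) ∨ (∃ s, d = xe s) ∨ (∃ s, d = ys s) ∨
      (∃ s, d = ye s) ∨ (M.lt d).1 = Let.t := by
    intro d hd
    rcases (M.act d).1 hd with h | ⟨s, h⟩
    · exact Or.inl h
    · right
      rw [hf] at h
      simp only [List.mem_cons, List.mem_append, List.not_mem_nil, or_false] at h
      rcases h with h | h | h | h | h | h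
      · exact Or.inl ⟨s, h⟩
      · exact Or.inr (Or.inr (Or.inr (Or.inr (tts s d h))))
      · exact Or.inr (Or.inr (Or.inl ⟨s, h⟩))
      · exact Or.inr (Or.inr (Or.inr (Or.inl ⟨s, h⟩)))
      · exact Or.inr (Or.inr (Or.inr (Or.inr (tte s d h))))
      · exact Or.inr (Or.inl ⟨s, h⟩)
  have clxt : ∀ d ∈ M.A, ∀ i b, M.lt d = (Let.x i b, true) → d ∈ M.out ∨ ∃ s, d = xs s := by
    intro d hd i b hl
    rcases cl d hd with h | h | ⟨s, h⟩ | ⟨s, h⟩ | ⟨s, h⟩ | h
    · exact Or.inl h
    · exact Or.inr h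
    · rw [h, lxe s] at hl; simp at hl
    · rw [h, lys s] at hl; simp at hl
    · rw [h, lye s] at hl; simp at hl
    · rw [hl] at h; simp at h
  have clxf : ∀ d ∈ M.A, ∀ i b, M.lt d = (Let.x i b, false) → d ∈ M.out ∨ ∃ s, d = xe s := by
    intro d hd i b hl
    rcases cl d hd with h | ⟨s, h⟩ | h | ⟨s, h⟩ | ⟨s, h⟩ | h
    · exact Or.inl h
    · rw [h, lxs s] at hl; simp at hl
    · exact Or.inr h
    · rw [h, lys s] at hl; simp at hl
    · rw [h, lye s] at hl; simp at hl
    · rw [hl] at h; simp at h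
  have noy : ∀ d ∈ M.out, ∀ j, (M.lt d).1 ≠ Let.y j := by
    intro d hd j
    exact hO.1 (M.lt d) (List.mem_map_of_mem hd) j
  have clyt : ∀ d ∈ M.A, ∀ j, M.lt d = (Let.y j, true) → ∃ s, d = ys s := by
    intro d hd j hl
    rcases cl d hd with h | ⟨s, h⟩ | ⟨s, h⟩ | h | ⟨s, h⟩ | h
    · exact absurd (by rw [hl]) (noy d h j)
    · rw [h, lxs s] at hl; simp at hl
    · rw [h, lxe s] at hl; simp at hl
    · exact h
    · rw [h, lye s] at hl; simp at hl
    · rw [hl] at h; simp at h
  have clyf : ∀ d ∈ M.A, ∀ j, M.lt d = (Let.y j, false) → ∃ s, d = ye s := by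
    intro d hd j hl
    rcases cl d hd with h | ⟨s, h⟩ | ⟨s, h⟩ | ⟨s, h⟩ | h | h
    · exact absurd (by rw [hl]) (noy d h j)
    · rw [h, lxs s] at hl; simp at hl
    · rw [h, lxe s] at hl; simp at hl
    · rw [h, lys s] at hl; simp at hl
    · exact h
    · rw [hl] at h; simp at h
  -- uniqueness of the outer x darts
  have uniq : ∀ P : Let p n × Bool → Bool, (M.ow.filter P).length ≤ 1 →
      ∀ d ∈ M.out, ∀ e ∈ M.out, P (M.lt d) = true → P (M.lt e) = true → d = e := by
    intro P hP d hd e he h1 h2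
    by_contra hne
    have h3 : M.ow.filter P = (M.out.filter (fun d => P (M.lt d))).map M.lt := by
      rw [Mp.ow, List.filter_map]; rfl
    rw [h3, List.length_map] at hP
    have h4 : d ∈ M.out.filter (fun d => P (M.lt d)) := List.mem_filter.2 ⟨hd, h1⟩
    have h5 : e ∈ M.out.filter (fun d => P (M.lt d)) := List.mem_filter.2 ⟨he, h2⟩
    rcases hl : M.out.filter (fun d => P (M.lt d)) with _ | ⟨a, _ | ⟨b, l⟩⟩
    · rw [hl] at h4; simp at h4
    · rw [hl] at h4 h5
      simp only [List.mem_cons, List.not_mem_nil, or_false] at h4 h5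
      exact hne (h4.trans h5.symm)
    · rw [hl] at hP; simp at hP
  have uxt : ∀ d ∈ M.out, ∀ e ∈ M.out, ∀ i b j c, M.lt d = (Let.x i b, true) →
      M.lt e = (Let.x j c, true) → d = e := by
    intro d hd e he i b j c h1 h2
    exact uniq _ hO.2.1 d hd e he (by rw [h1]; rfl) (by rw [h2]; rfl)
  have uxf : ∀ d ∈ M.out, ∀ e ∈ M.out, ∀ i b j c, M.lt d = (Let.x i b, false) →
      M.lt e = (Let.x j c, false) → d = e := by
    intro d hd e he i b j c h1 h2
    exact uniq _ hO.2.2 d hd e he (by rw [h1]; rfl) (by rw [h2]; rfl)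
  have ixs : ∀ s s', xs s = xs s' → s = s' := fun s s' h =>
    face_face M (mxs s) (h ▸ mxs s')
  have ixe : ∀ s s', xe s = xe s' → s = s' := fun s s' h =>
    face_face M (mxe s) (h ▸ mxe s')
  have iys : ∀ s s', ys s = ys s' → s = s' := fun s s' h =>
    face_face M (mys s) (h ▸ mys s')
  have iye : ∀ s s', ye s = ye s' → s = s' := fun s s' h =>
    face_face M (mye s) (h ▸ mye s')
  -- letters of the partners
  have lmxs : ∀ s, M.lt (M.μ (xs s)) = (Let.x (row (M.q s).1) (M.q s).2, false) := by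
    intro s; rw [M.lab _ (axs s), lxs s]; rfl
  have lmxe : ∀ s, M.lt (M.μ (xe s)) = (Let.x (row (mt σ (M.q s)).1) (mt σ (M.q s)).2, true) := by
    intro s; rw [M.lab _ (axe s), lxe s]; rfl
  have lmys : ∀ s, M.lt (M.μ (ys s)) = (Let.y (blk (M.q s).1), false) := by
    intro s; rw [M.lab _ (ays s), lys s]; rfl
  have lmye : ∀ s, M.lt (M.μ (ye s)) = (Let.y (blk (mt σ (M.q s)).1), true) := by
    intro s; rw [M.lab _ (aye s), lye s]; rfl
  have amxs : ∀ s, M.μ (xs s) ∈ M.A := fun s => M.inv.mem _ (axs s)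
  have amxe : ∀ s, M.μ (xe s) ∈ M.A := fun s => M.inv.mem _ (axe s)
  have amys : ∀ s, M.μ (ys s) ∈ M.A := fun s => M.inv.mem _ (ays s)
  have amye : ∀ s, M.μ (ye s) ∈ M.A := fun s => M.inv.mem _ (aye s)
  -- the permutation X
  let fX : M.S → Option M.S := fun s => own M (M.μ (xs s))
  have fXe : ∀ s s', M.μ (xs s) = xe s' → fX s = some s' := fun s s' h => by
    change own M (M.μ (xs s)) = _
    rw [h]; exact own_face M (mxe s')
  have fXc : ∀ s, (∃ s', M.μ (xs s) = xe s') ∨ (M.μ (xs s) ∈ M.out ∧ fX s = none) := by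
    intro s
    rcases clxf _ (amxs s) _ _ (lmxs s) with h | h
    · exact Or.inr ⟨h, own_out M h⟩
    · exact Or.inl h
  have fXi : Function.Injective fX := by
    intro s r h
    rcases fXc s with ⟨s', hs⟩ | ⟨hs, hs2⟩
    · rw [fXe s s' hs] at h
      rcases fXc r with ⟨r', hr⟩ | ⟨hr, hr2⟩
      · rw [fXe r r' hr] at h
        have h2 : s' = r' := Option.some.inj h
        exact ixs _ _ (mu_inj M (axs s) (axs r) (by rw [hs, hr, h2]))
      · rw [hr2] at h; simp at h
    · rw [hs2] at h
      rcases fXc r with ⟨r', hr⟩ | ⟨hr, hr2⟩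
      · rw [fXe r r' hr] at h; simp at h
      · exact ixs _ _ (mu_inj M (axs s) (axs r)
          (uxf _ hs _ hr _ _ _ _ (lmxs s) (lmxs r)))
  obtain ⟨X, hX⟩ := exists_perm fX fXi
  -- the permutation Y
  let fY : M.S → Option M.S := fun s => own M (M.μ (ye s))
  have fYe : ∀ s s', M.μ (ye s) = ys s' → fY s = some s' := fun s s' h => by
    change own M (M.μ (ye s)) = _
    rw [h]; exact own_face M (mys s')
  have fYc : ∀ s, ∃ s', M.μ (ye s) = ys s' := fun s => clyt _ (amye s) _ (lmye s)
  have fYi : Function.Injective fY := by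
    intro s r h
    obtain ⟨s', hs⟩ := fYc s
    obtain ⟨r', hr⟩ := fYc r
    rw [fYe s s' hs, fYe r r' hr] at h
    have h2 : s' = r' := Option.some.inj h
    exact iye _ _ (mu_inj M (aye s) (aye r) (by rw [hs, hr, h2]))
  obtain ⟨Y, hY⟩ := exists_perm fY fYi
  have Yn : Y none = none := by
    rcases h : Y.symm none with _ | s
    · rw [← h, Equiv.apply_symm_apply, h]
    · have h2 : Y (some s) = none := by rw [← h, Equiv.apply_symm_apply]
      obtain ⟨s', hs⟩ := fYc s
      rw [hY, fYe s s' hs] at h2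
      simp at h2
  have Xs : ∀ s s', X (some s) = some s' ↔ M.μ (xs s) = xe s' := by
    intro s s'
    rw [hX]
    constructor
    · intro h
      rcases fXc s with ⟨r, hr⟩ | ⟨_, h2⟩
      · rw [fXe s r hr] at h
        rw [hr, Option.some.inj h]
      · rw [h2] at h; simp at h
    · exact fXe s s'
  have Ys : ∀ s s', Y (some s) = some s' ↔ M.μ (ye s) = ys s' := by
    intro s s'
    rw [hY]
    constructor
    · intro h
      obtain ⟨r, hr⟩ := fYc s
      rw [fYe s r hr] at h
      rw [hr, Option.some.inj h]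
    · exact fYe s s'
  have Xo : ∀ s, X (some s) = none → M.μ (xs s) ∈ M.out := by
    intro s h
    rw [hX] at h
    rcases fXc s with ⟨r, hr⟩ | ⟨h2, _⟩
    · rw [fXe s r hr] at h; simp at h
    · exact h2
  -- an xe dart is glued to an outer dart iff its face is X none
  have Xi : ∀ s, X none = some s → M.μ (xe s) ∈ M.out := by
    intro s h
    rcases clxt _ (amxe s) _ _ (lmxe s) with h2 | ⟨r, hr⟩
    · exact h2
    · have h3 : M.μ (xs r) = xe s := by rw [← hr, M.inv.inv _ (axe s)]
      have h4 : X (some r) = some s := (Xs r s).2 h3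
      have := X.injective (h4.trans h.symm)
      simp at this
  have Xi' : ∀ s, M.μ (xe s) ∈ M.out → X.symm (some s) = none := by
    intro s h
    rcases h2 : X.symm (some s) with _ | r
    · rfl
    · exfalso
      have h3 : X (some r) = some s := by rw [← h2, Equiv.apply_symm_apply]
      have h4 := (Xs r s).1 h3
      have h5 : M.μ (xe s) = xs r := by rw [← h4, M.inv.inv _ (axs r)]
      rw [h5] at h
      exact out_face M h (mxs r)
  have Xso : ∀ s, M.μ (xs s) ∈ M.out → X (some s) = none := by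
    intro s h
    rw [hX]; exact own_out M h
  -- outer darts
  have clo : ∀ d ∈ M.out, (M.lt d).1 = Let.t ∨ (∃ i b, M.lt d = (Let.x i b, true)) ∨
      ∃ i b, M.lt d = (Let.x i b, false) := by
    intro d hd
    rcases hl : M.lt d with ⟨l, b⟩
    rcases l with _ | ⟨i, c⟩ | j
    · exact Or.inl rfl
    · rcases b with _ | _
      · exact Or.inr (Or.inr ⟨i, c, rfl⟩)
      · exact Or.inr (Or.inl ⟨i, c, rfl⟩)
    · exact absurd (by rw [hl]) (noy d hd j)
  have ctf : ∀ d ∈ M.out, ∀ i b, M.lt d = (Let.x i b, true) →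
      ∃ e ∈ M.out, ∃ j c, M.lt e = (Let.x j c, false) := by
    intro d hd i b hl
    have hdA := A_out M hd
    have hm : M.μ d ∈ M.A := M.inv.mem _ hdA
    have hlm : M.lt (M.μ d) = (Let.x i b, false) := by rw [M.lab _ hdA, hl]; rfl
    rcases clxf _ hm _ _ hlm with h | ⟨s, h⟩
    · exact ⟨_, h, _, _, hlm⟩
    · have h2 : M.μ (xe s) ∈ M.out := by rw [← h, M.inv.inv _ hdA]; exact hd
      have h3 := Xi' s h2
      have h4 : X none = some s := by rw [← h3, Equiv.apply_symm_apply]
      rcases h5 : X.symm none with _ | r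
      · have : X none = none := by rw [← h5, Equiv.apply_symm_apply, h5]
        rw [h4] at this; simp at this
      · have h6 : X (some r) = none := by rw [← h5, Equiv.apply_symm_apply]
        exact ⟨_, Xo r h6, _, _, lmxs r⟩
  have cft : ∀ d ∈ M.out, ∀ i b, M.lt d = (Let.x i b, false) →
      ∃ e ∈ M.out, ∃ j c, M.lt e = (Let.x j c, true) := by
    intro d hd i b hl
    have hdA := A_out M hd
    have hm : M.μ d ∈ M.A := M.inv.mem _ hdA
    have hlm : M.lt (M.μ d) = (Let.x i b, true) := by rw [M.lab _ hdA, hl]; rfl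
    rcases clxt _ hm _ _ hlm with h | ⟨s, h⟩
    · exact ⟨_, h, _, _, hlm⟩
    · have h2 : M.μ (xs s) ∈ M.out := by rw [← h, M.inv.inv _ hdA]; exact hd
      have h3 := Xso s h2
      rcases h5 : X none with _ | r
      · have := X.injective (h3.trans h5.symm)
        simp at this
      · exact ⟨_, Xi r h5, _, _, lmxe r⟩
  have Ysn : Y.symm none = none := by rw [Equiv.symm_apply_eq, Yn]
  have two : ∀ x : ZMod 2, x + x = 0 := fun x => CharTwo.add_self_eq_zero x
  refine ⟨⟨xs, xe, ys, ye, ts, te, X, Y, hf, lxs, lts, lys, lye, lte, lxe, Yn, Xs, Ys, Xo, Xi, ?_⟩⟩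
  intro ax ay hrel
  have hn : ax (X.symm none) = ax none := by
    have h := hrel none
    rw [Ysn, add_assoc, two, add_zero] at h
    exact (CharTwo.add_eq_zero.1 h).symm
  let a : M.D → ZMod 2 := fun d => match M.lt d with
    | (Let.t, _) => 0
    | (Let.x _ _, true) => ax (own M d)
    | (Let.x _ _, false) => ax (X.symm (own M d))
    | (Let.y _, true) => ay (Y.symm (own M d))
    | (Let.y _, false) => ay (own M d)
  have at0 : ∀ d, (M.lt d).1 = Let.t → a d = 0 := by
    intro d h
    rcases hl : M.lt d with ⟨l, b⟩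
    rw [hl] at h
    subst h
    simp only [a, hl]
  have axt : ∀ d i b, M.lt d = (Let.x i b, true) → a d = ax (own M d) := by
    intro d i b h; simp only [a, h]
  have axf : ∀ d i b, M.lt d = (Let.x i b, false) → a d = ax (X.symm (own M d)) := by
    intro d i b h; simp only [a, h]
  have ayt : ∀ d j, M.lt d = (Let.y j, true) → a d = ay (Y.symm (own M d)) := by
    intro d j h; simp only [a, h]
  have ayf : ∀ d j, M.lt d = (Let.y j, false) → a d = ay (own M d) := by
    intro d j h; simp only [a, h]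
  have a_xs : ∀ s, a (xs s) = ax (some s) := fun s => by
    rw [axt _ _ _ (lxs s), own_face M (mxs s)]
  have a_xe : ∀ s, a (xe s) = ax (X.symm (some s)) := fun s => by
    rw [axf _ _ _ (lxe s), own_face M (mxe s)]
  have a_ys : ∀ s, a (ys s) = ay (Y.symm (some s)) := fun s => by
    rw [ayt _ _ (lys s), own_face M (mys s)]
  have a_ye : ∀ s, a (ye s) = ay (some s) := fun s => by
    rw [ayf _ _ (lye s), own_face M (mye s)]
  have a_ot : ∀ d ∈ M.out, ∀ i b, M.lt d = (Let.x i b, true) → a d = ax none := by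
    intro d hd i b h
    rw [axt _ _ _ h, own_out M hd]
  have a_of : ∀ d ∈ M.out, ∀ i b, M.lt d = (Let.x i b, false) → a d = ax none := by
    intro d hd i b h
    rw [axf _ _ _ h, own_out M hd, hn]
  -- invariance under the gluing
  have hxt : ∀ d ∈ M.A, ∀ i b, M.lt d = (Let.x i b, true) → a (M.μ d) = a d := by
    intro d hd i b hl
    have hm : M.μ d ∈ M.A := M.inv.mem _ hd
    have hlm : M.lt (M.μ d) = (Let.x i b, false) := by rw [M.lab _ hd, hl]; rfl
    rcases clxt _ hd _ _ hl with h | ⟨s, h⟩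
    · rw [a_ot d h i b hl]
      rcases clxf _ hm _ _ hlm with h2 | ⟨r, h2⟩
      · exact a_of _ h2 _ _ hlm
      · have h3 : M.μ (xe r) ∈ M.out := by rw [← h2, M.inv.inv _ hd]; exact h
        rw [h2, a_xe, Xi' r h3]
    · rw [h, a_xs]
      rcases clxf _ (amxs s) _ _ (lmxs s) with h2 | ⟨r, h2⟩
      · have h3 := Xso s h2
        rw [a_of _ h2 _ _ (lmxs s), ← hn, ← h3, Equiv.symm_apply_apply]
      · have h3 := (Xs s r).2 h2
        rw [h2, a_xe, ← h3, Equiv.symm_apply_apply]
  have hyf : ∀ d ∈ M.A, ∀ j, M.lt d = (Let.y j, false) → a (M.μ d) = a d := by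
    intro d hd j hl
    obtain ⟨s, rfl⟩ := clyf _ hd _ hl
    obtain ⟨r, hr⟩ := clyt _ (amye s) _ (lmye s)
    have h3 := (Ys s r).2 hr
    rw [hr, a_ys, ← h3, Equiv.symm_apply_apply, a_ye]
  have hinv : ∀ d ∈ M.A, a (M.μ d) = a d := by
    intro d hd
    rcases hl : M.lt d with ⟨l, b⟩
    have hlm := M.lab _ hd
    rw [hl] at hlm
    rcases l with _ | ⟨i, c⟩ | j
    · rw [at0 d (by rw [hl]), at0 (M.μ d) (by rw [hlm])]
    · rcases b with _ | _
      · have h := hxt (M.μ d) (M.inv.mem _ hd) i c hlm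
        rw [M.inv.inv _ hd] at h
        exact h.symm
      · exact hxt d hd i c hl
    · rcases b with _ | _
      · exact hyf d hd j hl
      · have h := hyf (M.μ d) (M.inv.mem _ hd) j hlm
        rw [M.inv.inv _ hd] at h
        exact h.symm
  have sum_ts : ∀ s, ((ts s).map a).sum = 0 := fun s => List.sum_eq_zero (by
    intro x hx
    obtain ⟨e, he, rfl⟩ := List.mem_map.1 hx
    exact at0 e (tts s e he))
  have sum_te : ∀ s, ((te s).map a).sum = 0 := fun s => List.sum_eq_zero (by
    intro x hx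
    obtain ⟨e, he, rfl⟩ := List.mem_map.1 hx
    exact at0 e (tte s e he))
  have hfs : ∀ s, ((M.face s).map a).sum = 0 := by
    intro s
    rw [hf]
    simp only [List.map_cons, List.map_append, List.sum_cons, List.sum_append, List.map_nil,
      List.sum_nil, sum_ts, sum_te, a_xs, a_xe, a_ys, a_ye]
    have := hrel (some s)
    linear_combination this
  -- the two outer x-darts
  have hpair : ∀ d1 ∈ M.out, ∀ d0 ∈ M.out, ∀ i b j c, M.lt d1 = (Let.x i b, true) →
      M.lt d0 = (Let.x j c, false) → d1 ≠ d0 ∧ ∀ e ∈ M.out, e ≠ d1 → e ≠ d0 → a e = 0 := by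
    intro d1 h1 d0 h0 i b j c hl1 hl0
    refine ⟨fun h => ?_, fun e he hne1 hne0 => ?_⟩
    · rw [h, hl0] at hl1; simp at hl1
    · rcases clo e he with h | ⟨k, b', h⟩ | ⟨k, b', h⟩
      · exact at0 e h
      · exact absurd (uxt e he d1 h1 _ _ _ _ h hl1) hne1
      · exact absurd (uxf e he d0 h0 _ _ _ _ h hl0) hne0
  have hos : (M.out.map a).sum = 0 := by
    by_cases hex : ∃ d1 ∈ M.out, ∃ i b, M.lt d1 = (Let.x i b, true)
    · obtain ⟨d1, h1, i, b, hl1⟩ := hex
      obtain ⟨d0, h0, j, c, hl0⟩ := ctf d1 h1 i b hl1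
      obtain ⟨hne, hz⟩ := hpair d1 h1 d0 h0 _ _ _ _ hl1 hl0
      rw [← List.sum_toFinset a (out_nodup M),
        Finset.sum_eq_add_of_mem d1 d0 (List.mem_toFinset.2 h1) (List.mem_toFinset.2 h0) hne
          (fun e he h => hz e (List.mem_toFinset.1 he) h.1 h.2),
        a_ot d1 h1 _ _ hl1, a_of d0 h0 _ _ hl0, two]
    · apply List.sum_eq_zero
      intro x hx
      obtain ⟨e, he, rfl⟩ := List.mem_map.1 hx
      rcases clo e he with h | ⟨i, b, h⟩ | ⟨i, b, h⟩
      · exact at0 e h
      · exact absurd ⟨e, he, i, b, h⟩ hex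
      · exact absurd (cft e he i b h) hex
  obtain ⟨U, hU, hUf, hUo⟩ := M.H1 a hinv hfs hos
  have FU : ∀ s, U (ys s) = U (xs s) + a (xs s) ∧ U (ye s) = U (ys s) + a (ys s) ∧
      U (xe s) = U (ye s) + a (ye s) ∧ U (xs s) = U (xe s) + a (xe s) := by
    intro s
    obtain ⟨c, h⟩ := hUf s
    rw [hf] at h
    obtain ⟨h1, h⟩ := h
    obtain ⟨m, h2, h⟩ := (pth_append _ _ _ _ _ _).1 h
    have hm := pth_zero _ _ _ _ _ (fun d hd c => by rw [at0 d (tts s d hd), add_zero]) h2
    obtain ⟨h3, h4, h⟩ := h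
    obtain ⟨m', h5, h⟩ := (pth_append _ _ _ _ _ _).1 h
    have hm' := pth_zero _ _ _ _ _ (fun d hd c => by rw [at0 d (tte s d hd), add_zero]) h5
    obtain ⟨h6, h7⟩ := h
    have h8 : m' + a (xe s) = c := h7
    refine ⟨?_, ?_, ?_, ?_⟩
    · rw [h3, hm, h1]
    · rw [h4, h3]
    · rw [h6, hm', h4]
    · rw [h6, h1, h8]
  -- the values at the two outer x-darts
  have hout : ∀ d1 ∈ M.out, ∀ d0 ∈ M.out, ∀ i b j c, M.lt d1 = (Let.x i b, true) →
      M.lt d0 = (Let.x j c, false) → U d0 = U d1 + ax none := by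
    intro d1 h1 d0 h0 i b j c hl1 hl0
    obtain ⟨hne, hz⟩ := hpair d1 h1 d0 h0 _ _ _ _ hl1 hl0
    have e1 := a_ot d1 h1 _ _ hl1
    have e0 := a_of d0 h0 _ _ hl0
    obtain ⟨cc, hP⟩ := hUo
    have key : ∀ u v : M.D, u ∈ M.out → v ∈ M.out → u ≠ v → a u = ax none →
        (∀ e ∈ M.out, e ≠ u → e ≠ v → a e = 0) → (∃ l1 l2 l3, M.out = l1 ++ u :: (l2 ++ v :: l3)) →
        U v = U u + ax none := by
      intro u v hu hv huv hau hz' ⟨l1, l2, l3, hl⟩
      have hnd := out_nodup M
      rw [hl] at hP hnd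
      obtain ⟨m, _, hP2⟩ := (pth_append _ _ _ _ _ _).1 hP
      obtain ⟨hUu, hP3⟩ := hP2
      obtain ⟨m', hP4, hP5⟩ := (pth_append _ _ _ _ _ _).1 hP3
      have hm' := pth_zero _ _ _ _ _ (fun d hd c => by
        have hd1 : d ∈ M.out := by rw [hl]; simp [hd]
        have hd2 : d ≠ u := by
          rintro rfl
          have := (List.nodup_append.1 hnd).2.1
          rw [List.nodup_cons] at this
          exact this.1 (List.mem_append_left _ hd)
        have hd3 : d ≠ v := by
          rintro rfl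
          have := (List.nodup_append.1 hnd).2.1
          rw [List.nodup_cons] at this
          have := (List.nodup_append.1 this.2).2.2 d hd d (List.mem_cons_self ..)
          exact this rfl
        rw [hz' d hd1 hd2 hd3, add_zero]) hP4
      rw [hP5.1, hm', hUu]
      change m + a u = m + ax none
      rw [hau]
    obtain ⟨l1, l2, hl⟩ := List.append_of_mem h1
    have h0' : d0 ∈ l1 ∨ d0 ∈ l2 := by
      have : d0 ∈ l1 ++ d1 :: l2 := by rw [← hl]; exact h0
      rw [List.mem_append, List.mem_cons] at this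
      rcases this with h | h | h
      · exact Or.inl h
      · exact absurd h.symm hne
      · exact Or.inr h
    rcases h0' with h | h
    · obtain ⟨l3, l4, hl3⟩ := List.append_of_mem h
      have h2 := key d0 d1 h0 h1 (Ne.symm hne) e0 (fun e he x y => hz e he y x)
        ⟨l3, l4, l2, by rw [hl, hl3]; simp⟩
      rw [h2, add_assoc, two, add_zero]
    · obtain ⟨l3, l4, hl3⟩ := List.append_of_mem h
      exact key d1 d0 h1 h0 hne e1 (fun e he x y => hz e he x y)
        ⟨l1, l3, l4, by rw [hl, hl3]⟩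
  -- values at the outer vertex
  let α : ZMod 2 := ((X none).map (fun s => U (xs s))).getD 0
  have hα : ∀ s, X none = some s → α = U (xs s) := by
    intro s h; simp only [α, h, Option.map_some, Option.getD_some]
  have hα' : ∀ s, X (some s) = none → α = U (xs s) := by
    intro s h
    rcases h1 : X none with _ | s1
    · have := X.injective (h.trans h1.symm)
      simp at this
    · have h2 := Xi s1 h1
      have h3 := Xo s h
      have h4 := hout _ h2 _ h3 _ _ _ _ (lmxe s1) (lmxs s)
      rw [hU _ (axs s), hU _ (axe s1), ← (FU s1).2.2.2, a_xs] at h4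
      have h5 : ax (some s) = ax none := by
        rw [← hn, ← h, Equiv.symm_apply_apply]
      rw [h5] at h4
      rw [hα s1 h1]
      exact (add_right_cancel h4).symm
  have exY : ∀ s, ∃ r, Y (some s) = some r ∧ M.μ (ye s) = ys r := by
    intro s
    obtain ⟨r, hr⟩ := fYc s
    exact ⟨r, (Ys s r).2 hr, hr⟩
  refine ⟨fun o => match o with | none => α | some s => U (xs s),
    fun o => match o with | none => α + ax none | some s => U (ys s),
    fun o => match o with | none => α + ax none + ay none | some s => U (ye s),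
    ?_, ?_, ?_, ?_, ?_⟩
  · rintro (_ | s)
    · rcases h : X none with _ | r
      · rfl
      · exact (hα r h).symm
    · rcases h : X (some s) with _ | r
      · exact hα' s h
      · have h1 := (Xs s r).1 h
        have h2 := hU _ (axs s)
        rw [h1] at h2
        have h3 := (FU r).2.2.2
        have h4 := hinv _ (axs s)
        rw [h1] at h4
        change U (xs r) = U (xs s)
        rw [h3, h2, h4, add_assoc, two, add_zero]
  · rintro (_ | s)
    · rw [Yn]
    · obtain ⟨r, h, h1⟩ := exY s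
      rw [h]
      have h2 := hU _ (aye s)
      rw [h1] at h2
      have h3 := (FU r).2.1
      have h4 := hinv _ (aye s)
      rw [h1] at h4
      change U (ye r) = U (ye s)
      rw [h3, h2, h4, add_assoc, two, add_zero]
  · have hYm : ∀ s r, M.μ (ye s) = ys r → U (ys r) = U (xe s) := by
      intro s r h1
      have h2 := hU _ (aye s)
      rw [h1] at h2
      rw [h2, (FU s).2.2.1]
    rintro (_ | s)
    · rcases h : X none with _ | r
      · rw [Yn]
      · obtain ⟨v, hv, hv2⟩ := exY r
        rw [hv]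
        change U (ys v) = α + ax none
        rw [hYm r v hv2, hα r h, (FU r).2.2.2, a_xe, ← h, Equiv.symm_apply_apply, add_assoc, two,
          add_zero]
    · rcases h : X (some s) with _ | r
      · rw [Yn]
        change α + ax none = U (ys s)
        rw [(FU s).1, a_xs, hα' s h]
        have h5 : ax (some s) = ax none := by
          rw [← hn, ← h, Equiv.symm_apply_apply]
        rw [h5]
      · obtain ⟨v, hv, hv2⟩ := exY r
        rw [hv]
        have h1 := (Xs s r).1 h
        have h2 := hU _ (axs s)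
        rw [h1] at h2
        change U (ys v) = U (ys s)
        rw [hYm r v hv2, h2, (FU s).1]
  · rintro (_ | s)
    · change ax none = α + (α + ax none)
      rw [← add_assoc, two, zero_add]
    · change ax (some s) = U (xs s) + U (ys s)
      rw [(FU s).1, ← add_assoc, two, zero_add, a_xs]
  · rintro (_ | s)
    · rw [Yn]
      change ay none = α + ax none + (α + ax none + ay none)
      rw [← add_assoc, two, zero_add]
    · obtain ⟨r, h, h1⟩ := exY s
      rw [h]
      have h2 := hU _ (aye s)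
      rw [h1] at h2
      change ay (some s) = U (ys r) + U (ye s)
      rw [h2, a_ye]
      have := two (U (ye s))
      linear_combination -this

end ExtL

theorem stmtExt : StmtExt := fun _ _ _ M hO => ExtL.stmtExt_aux M hO

end Vale.Agent.P201.Z.H
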