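import Vale.Agent.P201.Z.H.Defs

/-! P201, plan B, leaf H10: isoperimetry from the cut lemma and the depth lemma. -/

namespace Vale.Agent.P201.Z.H

open Finset

namespace IsoAux

/-! ### connectivity -/

section conn


variable {T : Type} [Fintype T] [DecidableEq T] {X Y : Equiv.Perm T}

theorem adj_symm {s t : T} (h : Adj X Y s t) : Adj X Y t s := by
  rcases h with h | h | h | h
  · exact Or.inr (Or.inl h)
  · exact Or.inl h
  · exact Or.inr (Or.inr (Or.inr h))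
  · exact Or.inr (Or.inr (Or.inl h))

/-- path inside `S` -/
def Pa (X Y : Equiv.Perm T) (S : Finset T) : T → T → Prop :=
  Relation.ReflTransGen (fun a b => b ∈ S ∧ Adj X Y a b)

theorem pa_mem {S : Finset T} {s t : T} (h : Pa X Y S s t) (hs : s ∈ S) : t ∈ S := by
  induction h with
  | refl => exact hs
  | tail _ h _ => exact h.1

theorem pa_rev {S : Finset T} {s t : T} (h : Pa X Y S s t) (hs : s ∈ S) : Pa X Y S t s := by
  induction h with
  | refl => exact Relation.ReflTransGen.refl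
  | tail h1 h2 ih => exact Relation.ReflTransGen.head ⟨pa_mem h1 hs, adj_symm h2.2⟩ ih

theorem pa_mono {S S' : Finset T} (hS : S ⊆ S') {s t : T} (h : Pa X Y S s t) :
    Pa X Y S' s t := by
  induction h with
  | refl => exact Relation.ReflTransGen.refl
  | tail _ h2 ih => exact Relation.ReflTransGen.tail ih ⟨hS h2.1, h2.2⟩

theorem pa_trans {S : Finset T} {s t u : T} (h : Pa X Y S s t) (h' : Pa X Y S t u) :
    Pa X Y S s u := Relation.ReflTransGen.trans h h'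

theorem conn_hub {U S : Finset T} (hUS : U ⊆ S) (hU : ConnOn X Y U)
    (h : ∀ s ∈ S, ∃ u ∈ U, Pa X Y S s u) : ConnOn X Y S := by
  intro s hs t ht
  obtain ⟨u, hu, h1⟩ := h s hs
  obtain ⟨u', hu', h2⟩ := h t ht
  exact pa_trans h1 (pa_trans (pa_mono hUS (hU u hu u' hu')) (pa_rev h2 ht))

theorem dd_of_sep {C A : Finset T} (hC : DD X Y C) (hT : ConnOn X Y univ) (hAC : A ⊆ C)
    (hsep : ∀ a ∈ A, ∀ b ∈ C, b ∉ A → ¬ Adj X Y a b) : DD X Y A := by
  have hsub : univ \ C ⊆ univ \ A := sdiff_subset_sdiff subset_rfl hAC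
  obtain ⟨c, hc⟩ := hC.1
  refine ⟨⟨c, hsub hc⟩, conn_hub hsub hC.2 fun s hs => ?_⟩
  have key : ∀ s, Pa X Y univ s c → s ∉ A → ∃ u ∈ univ \ C, Pa X Y (univ \ A) s u := by
    intro s hp
    induction hp using Relation.ReflTransGen.head_induction_on with
    | refl => exact fun _ => ⟨c, hc, Relation.ReflTransGen.refl⟩
    | @head a b h1 _ ih =>
      intro ha
      by_cases haC : a ∈ C
      · have hb : b ∉ A := fun hb => hsep b hb a haC ha (adj_symm h1.2)
        obtain ⟨u, hu, h3⟩ := ih hb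
        exact ⟨u, hu, Relation.ReflTransGen.head
          ⟨mem_sdiff.2 ⟨mem_univ _, hb⟩, h1.2⟩ h3⟩
      · exact ⟨a, mem_sdiff.2 ⟨mem_univ _, haC⟩, Relation.ReflTransGen.refl⟩
  exact key s (hT s (mem_univ _) c (mem_univ _)) (mem_sdiff.1 hs).2

theorem dd_of_touch {C A B : Finset T} (hC : DD X Y C) (hAB : A ∪ B = C) (hd : Disjoint A B)
    (hA : ConnOn X Y A) {a u : T} (ha : a ∈ A) (hu : u ∉ C) (h : Adj X Y a u) : DD X Y B := by
  have hBC : B ⊆ C := hAB ▸ subset_union_right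
  have hsub : univ \ C ⊆ univ \ B := sdiff_subset_sdiff subset_rfl hBC
  obtain ⟨c, hc⟩ := hC.1
  refine ⟨⟨c, hsub hc⟩, conn_hub hsub hC.2 fun s hs => ?_⟩
  by_cases hsC : s ∈ C
  · have hsA : s ∈ A := by
      rw [← hAB, mem_union] at hsC
      exact hsC.resolve_right (mem_sdiff.1 hs).2
    have hAs : A ⊆ univ \ B := fun x hx =>
      mem_sdiff.2 ⟨mem_univ _, fun hxB => (disjoint_left.1 hd) hx hxB⟩
    refine ⟨u, mem_sdiff.2 ⟨mem_univ _, hu⟩, ?_⟩
    exact pa_trans (pa_mono hAs (hA s hsA a ha))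
      (Relation.ReflTransGen.single ⟨hsub (mem_sdiff.2 ⟨mem_univ _, hu⟩), h⟩)
  · exact ⟨s, mem_sdiff.2 ⟨mem_univ _, hsC⟩, Relation.ReflTransGen.refl⟩

theorem exit {C : Finset T} (hT : ConnOn X Y univ) {c u : T} (hc : c ∈ C) (hu : u ∉ C) :
    ∃ x ∈ C, ∃ y, y ∉ C ∧ Adj X Y x y := by
  have key : ∀ s, Pa X Y univ s u → s ∈ C → ∃ x ∈ C, ∃ y, y ∉ C ∧ Adj X Y x y := by
    intro s hp
    induction hp using Relation.ReflTransGen.head_induction_on with
    | refl => exact fun h => absurd h hu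
    | @head a b h1 _ ih =>
      intro ha
      by_cases hb : b ∈ C
      · exact ih hb
      · exact ⟨a, ha, b, hb, h1.2⟩
  exact key c (hT c (mem_univ _) u (mem_univ _)) hc

/-! ### counting -/

theorem adj_X (s : T) : Adj X Y s (X s) := Or.inl rfl

theorem adj_Y (s : T) : Adj X Y s (Y s) := Or.inr (Or.inr (Or.inl rfl))

theorem bd_split (Z : Equiv.Perm T) {A B C : Finset T} (hAB : A ∪ B = C) (hd : Disjoint A B) :
    bd Z A + bd Z B ≤ bd Z C + (C.filter (fun s => Z s ∈ C ∧ (s ∈ A ↔ Z s ∈ B))).card := by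
  unfold bd
  have hd' : Disjoint (A.filter (fun s => Z s ∉ A)) (B.filter (fun s => Z s ∉ B)) :=
    disjoint_filter_filter hd
  rw [← card_union_of_disjoint hd']
  refine (card_le_card ?_).trans (card_union_le _ _)
  intro s hs
  rw [mem_union, mem_filter, mem_filter] at hs
  rw [mem_union, mem_filter, mem_filter]
  have hdis : ∀ x, x ∈ A → x ∈ B → False := fun x h1 h2 => (disjoint_left.1 hd) h1 h2
  have hmem : ∀ x, x ∈ C ↔ x ∈ A ∨ x ∈ B := fun x => by rw [← hAB, mem_union]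
  have h1 := hmem s
  have h2 := hmem (Z s)
  have h3 := hdis s
  have h4 := hdis (Z s)
  tauto

theorem bd_sep (Z : Equiv.Perm T) {A B C : Finset T} (hAB : A ∪ B = C) (hd : Disjoint A B)
    (h : ∀ s ∈ A, Z s ∉ B) (h' : ∀ s ∈ B, Z s ∉ A) : bd Z A + bd Z B ≤ bd Z C := by
  unfold bd
  have hd' : Disjoint (A.filter (fun s => Z s ∉ A)) (B.filter (fun s => Z s ∉ B)) :=
    disjoint_filter_filter hd
  rw [← card_union_of_disjoint hd']
  refine card_le_card ?_
  intro s hs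
  rw [mem_union, mem_filter, mem_filter] at hs
  rw [mem_filter]
  have hmem : ∀ x, x ∈ C ↔ x ∈ A ∨ x ∈ B := fun x => by rw [← hAB, mem_union]
  have h1 := hmem s
  have h2 := hmem (Z s)
  have h3 := h s
  have h4 := h' s
  tauto

theorem bd_cut (Z : Equiv.Perm T) {A B C : Finset T} (hAB : A ∪ B = C) (hd : Disjoint A B)
    (h : ∀ s ∈ B, Z s ∈ C) :
    bd Z B ≤ (C.filter (fun s => Z s ∈ C ∧ (s ∈ A ↔ Z s ∈ B))).card := by
  unfold bd
  refine card_le_card ?_
  intro s hs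
  rw [mem_filter] at hs
  rw [mem_filter]
  have hdis : s ∈ A → s ∈ B → False := fun h1 h2 => (disjoint_left.1 hd) h1 h2
  have hmem : s ∈ C ↔ s ∈ A ∨ s ∈ B := by rw [← hAB, mem_union]
  have h3 := h s
  tauto

theorem bd_cut' (Z : Equiv.Perm T) {A B C : Finset T} (hAB : A ∪ B = C)
    (h : ∀ s ∈ A, Z s ∈ C) :
    bd Z A ≤ (C.filter (fun s => Z s ∈ C ∧ (s ∈ A ↔ Z s ∈ B))).card := by
  unfold bd
  refine card_le_card ?_
  intro s hs
  rw [mem_filter] at hs
  rw [mem_filter]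
  have hmem : ∀ x, x ∈ C ↔ x ∈ A ∨ x ∈ B := fun x => by rw [← hAB, mem_union]
  have h1 := hmem s
  have h2 := hmem (Z s)
  have h3 := h s
  tauto

end conn

/-! ### the profile function -/

section real

/-- the profile -/
noncomputable def psi (p q c x : ℝ) : ℝ := min (p * x) (q * x + c * √x)

theorem psi_sub {p q c a b : ℝ} (hc : 0 ≤ c) (ha : 0 ≤ a) (hb : 0 ≤ b) (hpq : q ≤ p) :
    psi p q c (a + b) ≤ psi p q c a + psi p q c b := by
  have aux : ∀ a b : ℝ, 0 ≤ a → 0 ≤ b → q * b + c * √b ≤ p * b →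
      psi p q c (a + b) ≤ p * a + (q * b + c * √b) := by
    intro a b ha hb h
    unfold psi
    by_cases hb0 : b = 0
    · subst hb0
      refine (min_le_left _ _).trans ?_
      simp
    · have hbpos : 0 < b := lt_of_le_of_ne hb (Ne.symm hb0)
      refine (min_le_right _ _).trans ?_
      have hv : 0 < √b := Real.sqrt_pos.2 hbpos
      have hv2 : √b * √b = b := Real.mul_self_sqrt hb
      have hw2 : √(a + b) * √(a + b) = a + b := Real.mul_self_sqrt (by linarith)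
      have hw : √b ≤ √(a + b) := Real.sqrt_le_sqrt (by linarith)
      have h1 : c ≤ (p - q) * √b := by
        have h2 : c * √b ≤ ((p - q) * √b) * √b := by
          rw [mul_assoc, hv2]; linarith
        exact le_of_mul_le_mul_right h2 hv
      have h3 : c * (√(a + b) - √b) ≤ (p - q) * a := by
        have h4 : √b * (√(a + b) - √b) ≤ a := by nlinarith
        have h5 : c * (√(a + b) - √b) ≤ ((p - q) * √b) * (√(a + b) - √b) :=
          mul_le_mul_of_nonneg_right h1 (by linarith)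
        have h6 : (p - q) * (√b * (√(a + b) - √b)) ≤ (p - q) * a :=
          mul_le_mul_of_nonneg_left h4 (by linarith)
        linarith [mul_assoc (p - q) (√b) (√(a + b) - √b)]
      linarith
  rcases le_total (p * a) (q * a + c * √a) with h1 | h1 <;>
    rcases le_total (p * b) (q * b + c * √b) with h2 | h2
  · have e1 : psi p q c a = p * a := min_eq_left h1
    have e2 : psi p q c b = p * b := min_eq_left h2
    rw [e1, e2]
    refine (min_le_left _ _).trans ?_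
    linarith
  · have e1 : psi p q c a = p * a := min_eq_left h1
    have e2 : psi p q c b = q * b + c * √b := min_eq_right h2
    rw [e1, e2]
    exact aux a b ha hb h2
  · have e1 : psi p q c a = q * a + c * √a := min_eq_right h1
    have e2 : psi p q c b = p * b := min_eq_left h2
    rw [e1, e2, add_comm a b, add_comm (q * a + c * √a)]
    exact aux b a hb ha h1
  · have e1 : psi p q c a = q * a + c * √a := min_eq_right h1
    have e2 : psi p q c b = q * b + c * √b := min_eq_right h2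
    rw [e1, e2]
    refine (min_le_right _ _).trans ?_
    have h3 : √(a + b) ≤ √a + √b := by
      refine Real.sqrt_le_iff.2 ⟨by positivity, ?_⟩
      nlinarith [Real.mul_self_sqrt ha, Real.mul_self_sqrt hb,
        mul_nonneg (Real.sqrt_nonneg a) (Real.sqrt_nonneg b)]
    nlinarith

theorem log_le_sqrt {x : ℝ} (hx : 1 ≤ x) : Real.log x ≤ 2 * √x := by
  have h0 : 0 < √x := Real.sqrt_pos.2 (by linarith)
  have h1 : Real.log (√x) ≤ √x - 1 := Real.log_le_sub_one_of_pos h0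
  rw [Real.log_sqrt (by linarith)] at h1
  linarith

theorem sqrt_gain {a b : ℝ} (ha : 0 ≤ a) (hb : 0 ≤ b) (h1 : a + b ≤ 8 * a)
    (h2 : a + b ≤ 8 * b) : 5 / 4 * √(a + b) ≤ √a + √b := by
  have hab : 0 ≤ a + b := by linarith
  have h3 : 5 / 16 * (a + b) ≤ √a * √b := by
    rw [← Real.sqrt_mul ha]
    refine Real.le_sqrt_of_sq_le ?_
    nlinarith
  have h4 : (5 / 4 * √(a + b)) ^ 2 ≤ (√a + √b) ^ 2 := by
    nlinarith [Real.mul_self_sqrt ha, Real.mul_self_sqrt hb, Real.mul_self_sqrt hab]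
  exact le_of_sq_le_sq h4 (by positivity)

end real

/-! ### the functions -/

noncomputable def fn (e1 : ℝ) (K W : ℕ) (x : ℝ) : ℝ :=
  psi e1 (e1 / 2) (e1 / 8 * √(K : ℝ) * √(W : ℝ)) x

theorem fn_ge {e1 : ℝ} (he1 : 0 < e1) (K W : ℕ) {x : ℝ} (hx : 0 ≤ x) :
    e1 / 2 * x ≤ fn e1 K W x := by
  have hcc : 0 ≤ e1 / 8 * √(K : ℝ) * √(W : ℝ) := by positivity
  refine le_min (by nlinarith) ?_
  have := mul_nonneg hcc (Real.sqrt_nonneg x)
  linarith

theorem fn_le (e1 : ℝ) (K W : ℕ) (x : ℝ) : fn e1 K W x ≤ e1 * x := min_le_left _ _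

theorem fn_le' (e1 : ℝ) (K W : ℕ) (x : ℝ) :
    fn e1 K W x ≤ e1 / 2 * x + e1 / 8 * √(K : ℝ) * √(W : ℝ) * √x := min_le_right _ _

theorem fn_big {e1 : ℝ} (he1 : 0 < e1) (K W : ℕ) {x : ℝ} (hx : (K : ℝ) * W ≤ 8 * x) :
    e1 / 2 * x + e1 / 8 * √(K : ℝ) * √(W : ℝ) * √x ≤ fn e1 K W x := by
  have hx0 : 0 ≤ x := by
    have : (0 : ℝ) ≤ (K : ℝ) * W := by positivity
    linarith
  refine le_min ?_ le_rfl
  have h1 : √(K : ℝ) * √(W : ℝ) * √x ≤ 4 * x := by
    rw [← Real.sqrt_mul (by positivity), ← Real.sqrt_mul (by positivity)]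
    refine Real.sqrt_le_iff.2 ⟨by positivity, ?_⟩
    nlinarith
  have h2 : e1 / 8 * (√(K : ℝ) * √(W : ℝ) * √x) ≤ e1 / 8 * (4 * x) :=
    mul_le_mul_of_nonneg_left h1 (by positivity)
  linarith [mul_assoc (e1 / 8) (√(K : ℝ) * √(W : ℝ)) (√x),
    mul_assoc (e1 / 8) (√(K : ℝ)) (√(W : ℝ))]

theorem fn_sub {e1 : ℝ} (he1 : 0 < e1) (K W : ℕ) {x y : ℝ} (hx : 0 ≤ x) (hy : 0 ≤ y) :
    fn e1 K W (x + y) ≤ fn e1 K W x + fn e1 K W y :=
  psi_sub (by positivity) hx hy (by linarith)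

/-- numerical data of a big set -/
theorem big_data {e1 : ℝ} (he1 : 0 < e1) {K W : ℕ} (hK : 1 ≤ K) (hW : 1 ≤ W) {N r : ℕ}
    (hN : K * W < N)
    (hr : (r : ℝ) ≤ (W : ℝ) * (20 + (4 / (e1 / 2)) * Real.log ((N : ℝ) / W))) :
    ∃ S : ℝ, 0 < S ∧ (N : ℝ) = W * (S * S) ∧ √(N : ℝ) = √(W : ℝ) * S ∧ √(K : ℝ) ≤ S ∧
      2 * (r : ℝ) + W ≤ W * ((41 + 32 / e1) * S) := by
  have hK1 : (1 : ℝ) ≤ K := by exact_mod_cast hK
  have hW1 : (1 : ℝ) ≤ W := by exact_mod_cast hW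
  have hWpos : (0 : ℝ) < W := by linarith
  have hN' : (K : ℝ) * W < N := by exact_mod_cast hN
  have hρ : (K : ℝ) ≤ (N : ℝ) / W := by
    rw [le_div_iff₀ hWpos]; exact hN'.le
  have hρ1 : (1 : ℝ) ≤ (N : ℝ) / W := hK1.trans hρ
  have hlog := log_le_sqrt hρ1
  have hsqN : √(N : ℝ) = √(W : ℝ) * √((N : ℝ) / W) := by
    rw [← Real.sqrt_mul hWpos.le, mul_div_cancel₀ _ hWpos.ne']
  have hsρ : √(K : ℝ) ≤ √((N : ℝ) / W) := Real.sqrt_le_sqrt hρ
  have hs1 : 1 ≤ √((N : ℝ) / W) := by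
    rw [Real.one_le_sqrt]; exact hρ1
  have hS2 : √((N : ℝ) / W) * √((N : ℝ) / W) = (N : ℝ) / W :=
    Real.mul_self_sqrt (by positivity)
  obtain ⟨S, hS⟩ : ∃ S : ℝ, S = √((N : ℝ) / W) := ⟨_, rfl⟩
  rw [← hS] at hlog hsqN hsρ hs1 hS2
  refine ⟨S, by linarith, ?_, hsqN, hsρ, ?_⟩
  · rw [hS2, mul_div_cancel₀ _ hWpos.ne']
  · have h1 : (4 / (e1 / 2)) * Real.log ((N : ℝ) / W) ≤ (4 / (e1 / 2)) * (2 * S) :=
      mul_le_mul_of_nonneg_left hlog (by positivity)
    have h2 : 4 / (e1 / 2) = 8 / e1 := by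
      rw [div_div_eq_mul_div]; norm_num
    rw [h2] at h1 hr
    have h3 : (r : ℝ) ≤ W * (20 + 8 / e1 * (2 * S)) :=
      hr.trans (mul_le_mul_of_nonneg_left (by linarith) hWpos.le)
    have h6 : 32 / e1 = 4 * (8 / e1) := by ring
    rw [h6]
    have h5 : (W : ℝ) * (41 + 4 * (8 / e1) * S) ≤ W * ((41 + 4 * (8 / e1)) * S) :=
      mul_le_mul_of_nonneg_left (by nlinarith) hWpos.le
    linarith

theorem kappa {e1 : ℝ} (he1 : 0 < e1) {K : ℕ} (hκ : (32 / e1) * (41 + 32 / e1) ≤ √(K : ℝ)) :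
    41 + 32 / e1 ≤ e1 / 32 * √(K : ℝ) := by
  have h1 : e1 / 32 * ((32 / e1) * (41 + 32 / e1)) ≤ e1 / 32 * √(K : ℝ) :=
    mul_le_mul_of_nonneg_left hκ (by positivity)
  have h2 : e1 / 32 * ((32 / e1) * (41 + 32 / e1)) = 41 + 32 / e1 := by
    rw [← mul_assoc]
    have : e1 / 32 * (32 / e1) = 1 := by field_simp
    rw [this, one_mul]
  linarith

/-- a part without contact with the outside is impossible -/
theorem no_touch {e1 : ℝ} (he1 : 0 < e1) {K W N m : ℕ} (hW : 1 ≤ W)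
    (hκ : (32 / e1) * (41 + 32 / e1) ≤ √(K : ℝ)) {S : ℝ} (hS0 : 0 < S)
    (hNS : (N : ℝ) = W * (S * S)) (hsρ : √(K : ℝ) ≤ S) (h8 : N ≤ 8 * m) {b : ℝ}
    (h1 : fn e1 K W m ≤ b) (h2 : b ≤ W * ((41 + 32 / e1) * S)) : False := by
  have hWpos : (0 : ℝ) < W := by exact_mod_cast hW
  have hq : 0 < 41 + 32 / e1 := by positivity
  have hκ' := kappa he1 hκ
  have h3 : e1 / 2 * (m : ℝ) ≤ W * ((41 + 32 / e1) * S) :=
    ((fn_ge he1 K W (by positivity)).trans h1).trans h2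
  have h4 : (N : ℝ) ≤ 8 * (m : ℝ) := by exact_mod_cast h8
  have h5 : e1 / 16 * (W * (S * S)) ≤ W * ((41 + 32 / e1) * S) := by
    rw [← hNS]
    nlinarith
  have h6 : (W * S) * (e1 / 16 * S) ≤ (W * S) * (41 + 32 / e1) := by
    linarith [mul_assoc (W : ℝ) S (e1 / 16 * S)]
  have h7 : e1 / 16 * S ≤ 41 + 32 / e1 := le_of_mul_le_mul_left h6 (by positivity)
  have h8 : e1 / 32 * √(K : ℝ) ≤ e1 / 32 * S := mul_le_mul_of_nonneg_left hsρ (by positivity)
  linarith

theorem touch {e1 : ℝ} (he1 : 0 < e1) {K W N a b : ℕ} (hW : 1 ≤ W)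
    (hκ : (32 / e1) * (41 + 32 / e1) ≤ √(K : ℝ)) {S : ℝ} (hS0 : 0 < S)
    (hsqN : √(N : ℝ) = √(W : ℝ) * S) (hN : K * W < N) (hab : a + b = N)
    (ha8 : N ≤ 8 * a) (hb8 : N ≤ 8 * b) {bA bB bC : ℝ}
    (hA1 : fn e1 K W a ≤ bA) (hB1 : fn e1 K W b ≤ bB) (hC : bC < fn e1 K W N)
    (hsum : bA + bB ≤ bC + W * ((41 + 32 / e1) * S)) : False := by
  have hWpos : (0 : ℝ) < W := by exact_mod_cast hW
  have hsqW : √(W : ℝ) * √(W : ℝ) = W := Real.mul_self_sqrt hWpos.le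
  have hκ' := kappa he1 hκ
  have hN' : (K : ℝ) * W < N := by exact_mod_cast hN
  have hA8' : (N : ℝ) ≤ 8 * (a : ℝ) := by exact_mod_cast ha8
  have hB8' : (N : ℝ) ≤ 8 * (b : ℝ) := by exact_mod_cast hb8
  have hcardR : (a : ℝ) + b = N := by exact_mod_cast hab
  have hA2 := (fn_big he1 K W (x := a) (by linarith)).trans hA1
  have hB2 := (fn_big he1 K W (x := b) (by linarith)).trans hB1
  have hC2 := fn_le' e1 K W N
  have hgain := sqrt_gain (a := (a : ℝ)) (b := (b : ℝ)) (by positivity)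
    (by positivity) (by linarith) (by linarith)
  rw [hcardR] at hgain
  have hcc : 0 ≤ e1 / 8 * √(K : ℝ) * √(W : ℝ) := by positivity
  have h9 : e1 / 8 * √(K : ℝ) * √(W : ℝ) * (5 / 4 * √(N : ℝ)) ≤
      e1 / 8 * √(K : ℝ) * √(W : ℝ) * (√(a : ℝ) + √(b : ℝ)) :=
    mul_le_mul_of_nonneg_left hgain hcc
  have h10 : e1 / 8 * √(K : ℝ) * √(W : ℝ) * √(N : ℝ) < 4 * (W * ((41 + 32 / e1) * S)) := by
    have h13 : e1 / 2 * (a : ℝ) + e1 / 2 * b = e1 / 2 * N := by rw [← hcardR]; ring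
    linarith
  have h11 : e1 / 8 * √(K : ℝ) * √(W : ℝ) * √(N : ℝ) =
      4 * (W * ((e1 / 32 * √(K : ℝ)) * S)) := by
    rw [hsqN]
    linear_combination (e1 / 8 * √(K : ℝ) * S) * hsqW
  have h12 : W * ((41 + 32 / e1) * S) ≤ W * ((e1 / 32 * √(K : ℝ)) * S) :=
    mul_le_mul_of_nonneg_left (mul_le_mul_of_nonneg_right hκ' hS0.le) hWpos.le
  linarith

/-! ### the two cases -/

section cases

variable {T : Type} [Fintype T] [DecidableEq T] {X Y : Equiv.Perm T}

theorem case_conn (hCut : StmtCut) (hDep : StmtDep) {e1 : ℝ} (he1 : 0 < e1) (he1' : e1 ≤ 1)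
    {K W : ℕ} (hK : 1 ≤ K) (hW : 1 ≤ W) (hκ : (32 / e1) * (41 + 32 / e1) ≤ √(K : ℝ))
    (hHP : HP X Y) (hconn : ConnOn X Y univ) {C : Finset T} (hDD : DD X Y C)
    (hcon : ConnOn X Y C) (hbig : K * W < C.card)
    (ih' : ∀ C' ⊆ C, C' ≠ C → C'.Nonempty → DD X Y C' →
      fn e1 K W C'.card ≤ (bd X C' : ℝ) + W * (bd Y C' : ℝ)) :
    fn e1 K W C.card ≤ (bd X C : ℝ) + W * (bd Y C : ℝ) := by
  by_contra hcontra
  have hlt : (bd X C : ℝ) + W * (bd Y C : ℝ) < fn e1 K W C.card := not_le.1 hcontra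
  have hWC : W ≤ C.card := by nlinarith
  have hC2 : 2 ≤ C.card := by nlinarith
  have hWpos : (0 : ℝ) < W := by exact_mod_cast hW
  obtain ⟨r, ⟨dep⟩, hr⟩ := hDep T X Y hconn C W (e1 / 2) hW (by linarith) (by linarith) hDD
    hWC (fun C' hC' hne hne' hdd =>
      (fn_ge he1 K W (by positivity)).trans (ih' C' hC' hne hne' hdd))
  obtain ⟨A, B, hAB, hd, hcA, hcB, hA8, hB8, hcut⟩ :=
    hCut T X Y hHP hconn C W r hW hDD hcon hC2 dep
  obtain ⟨S, hS0, hNS, hsqN, hsρ, hr2⟩ := big_data he1 hK hW hbig hr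
  have hcard : A.card + B.card = C.card := by rw [← hAB, card_union_of_disjoint hd]
  have hAne : A.Nonempty := by
    rw [← card_pos]; omega
  have hBne : B.Nonempty := by
    rw [← card_pos]; omega
  have hAC : A ⊆ C := hAB ▸ subset_union_left
  have hBC : B ⊆ C := hAB ▸ subset_union_right
  have hAC' : A ≠ C := by
    intro h
    rw [h] at hcard
    have := card_pos.2 hBne
    omega
  have hBC' : B ≠ C := by
    intro h
    rw [h] at hcard
    have := card_pos.2 hAne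
    omega
  obtain ⟨cX, hcX⟩ : ∃ cX : ℕ, cX = (C.filter (fun s => X s ∈ C ∧ (s ∈ A ↔ X s ∈ B))).card :=
    ⟨_, rfl⟩
  obtain ⟨cY, hcY⟩ : ∃ cY : ℕ, cY = (C.filter (fun s => Y s ∈ C ∧ (s ∈ A ↔ Y s ∈ B))).card :=
    ⟨_, rfl⟩
  rw [← hcX, ← hcY] at hcut
  have hcutb : (cX : ℝ) + W * (cY : ℝ) ≤ W * ((41 + 32 / e1) * S) := by
    refine le_trans ?_ hr2
    exact_mod_cast hcut
  have hex : ∃ x ∈ C, ∃ y, y ∉ C ∧ Adj X Y x y := by
    obtain ⟨c, hc⟩ := card_pos.1 (by omega : 0 < C.card)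
    obtain ⟨u, hu⟩ := hDD.1
    exact exit hconn hc (mem_sdiff.1 hu).2
  have hBA : B ∪ A = C := by rw [union_comm]; exact hAB
  have htB : ∃ x ∈ B, ∃ y, y ∉ C ∧ Adj X Y x y := by
    by_contra hB
    push Not at hB
    obtain ⟨x, hx, y, hy, hxy⟩ := hex
    have hxA : x ∈ A := by
      rw [← hAB, mem_union] at hx
      exact hx.resolve_right fun h => hB x h y hy hxy
    have hddB := dd_of_touch hDD hAB hd hcA hxA hy hxy
    have h1 : bd X B ≤ cX := by
      rw [hcX]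
      exact bd_cut X hAB hd (fun s hs => by
        by_contra h
        exact hB s hs _ h (adj_X s))
    have h2 : bd Y B ≤ cY := by
      rw [hcY]
      exact bd_cut Y hAB hd (fun s hs => by
        by_contra h
        exact hB s hs _ h (adj_Y s))
    have h1' : (bd X B : ℝ) ≤ cX := by exact_mod_cast h1
    have h2' : (bd Y B : ℝ) ≤ cY := by exact_mod_cast h2
    exact no_touch he1 hW hκ hS0 hNS hsρ hB8 (ih' B hBC hBC' hBne hddB)
      ((add_le_add h1' (mul_le_mul_of_nonneg_left h2' hWpos.le)).trans hcutb)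
  have htA : ∃ x ∈ A, ∃ y, y ∉ C ∧ Adj X Y x y := by
    by_contra hA
    push Not at hA
    obtain ⟨x, hx, y, hy, hxy⟩ := hex
    have hxB : x ∈ B := by
      rw [← hAB, mem_union] at hx
      exact hx.resolve_left fun h => hA x h y hy hxy
    have hddA := dd_of_touch hDD hBA hd.symm hcB hxB hy hxy
    have h1 : bd X A ≤ cX := by
      rw [hcX]
      exact bd_cut' X hAB (fun s hs => by
        by_contra h
        exact hA s hs _ h (adj_X s))
    have h2 : bd Y A ≤ cY := by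
      rw [hcY]
      exact bd_cut' Y hAB (fun s hs => by
        by_contra h
        exact hA s hs _ h (adj_Y s))
    have h1' : (bd X A : ℝ) ≤ cX := by exact_mod_cast h1
    have h2' : (bd Y A : ℝ) ≤ cY := by exact_mod_cast h2
    exact no_touch he1 hW hκ hS0 hNS hsρ hA8 (ih' A hAC hAC' hAne hddA)
      ((add_le_add h1' (mul_le_mul_of_nonneg_left h2' hWpos.le)).trans hcutb)
  obtain ⟨x, hx, y, hy, hxy⟩ := htA
  obtain ⟨x', hx', y', hy', hxy'⟩ := htB
  have hddB := dd_of_touch hDD hAB hd hcA hx hy hxy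
  have hddA := dd_of_touch hDD hBA hd.symm hcB hx' hy' hxy'
  refine touch he1 hW hκ hS0 hsqN hbig hcard hA8 hB8 (ih' A hAC hAC' hAne hddA)
    (ih' B hBC hBC' hBne hddB) hlt ?_
  have h1 : bd X A + bd X B ≤ bd X C + cX := by rw [hcX]; exact bd_split X hAB hd
  have h2 : bd Y A + bd Y B ≤ bd Y C + cY := by rw [hcY]; exact bd_split Y hAB hd
  have h1' : (bd X A : ℝ) + bd X B ≤ bd X C + cX := by exact_mod_cast h1
  have h2' : (bd Y A : ℝ) + bd Y B ≤ bd Y C + cY := by exact_mod_cast h2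
  have h3 := mul_le_mul_of_nonneg_left h2' hWpos.le
  linarith

theorem case_not_conn {e1 : ℝ} (he1 : 0 < e1) (K W : ℕ)
    (hconn : ConnOn X Y univ) {C : Finset T} (hDD : DD X Y C)
    (hcon : ¬ ConnOn X Y C)
    (ih' : ∀ C' ⊆ C, C' ≠ C → C'.Nonempty → DD X Y C' →
      fn e1 K W C'.card ≤ (bd X C' : ℝ) + W * (bd Y C' : ℝ)) :
    fn e1 K W C.card ≤ (bd X C : ℝ) + W * (bd Y C : ℝ) := by
  classical
  unfold ConnOn at hcon
  push Not at hcon
  obtain ⟨s, hs, t, ht, hst⟩ := hcon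
  obtain ⟨A, hA⟩ : ∃ A : Finset T, A = C.filter (fun x => Pa X Y C s x) := ⟨_, rfl⟩
  obtain ⟨B, hB⟩ : ∃ B : Finset T, B = C \ A := ⟨_, rfl⟩
  have hAC : A ⊆ C := hA ▸ filter_subset _ _
  have hBC : B ⊆ C := hB ▸ sdiff_subset
  have hAB : A ∪ B = C := by rw [hB]; exact union_sdiff_of_subset hAC
  have hd : Disjoint A B := by rw [hB]; exact disjoint_sdiff
  have hsA : s ∈ A := by
    rw [hA, mem_filter]; exact ⟨hs, Relation.ReflTransGen.refl⟩
  have htB : t ∈ B := by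
    rw [hB, mem_sdiff, hA, mem_filter]
    exact ⟨ht, fun h => hst h.2⟩
  have hsep : ∀ a ∈ A, ∀ c ∈ C, c ∉ A → ¬ Adj X Y a c := by
    intro a ha c hc hcA hac
    apply hcA
    rw [hA, mem_filter] at ha
    rw [hA, mem_filter]
    exact ⟨hc, Relation.ReflTransGen.tail ha.2 ⟨hc, hac⟩⟩
  have hsepB : ∀ a ∈ B, ∀ c ∈ C, c ∉ B → ¬ Adj X Y a c := by
    intro a ha c hc hcB hac
    have hcA : c ∈ A := by
      rw [← hAB, mem_union] at hc
      exact hc.resolve_right hcB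
    exact hsep c hcA a (hBC ha) (fun h => (disjoint_left.1 hd) h ha) (adj_symm hac)
  have hddA := dd_of_sep hDD hconn hAC hsep
  have hddB := dd_of_sep hDD hconn hBC hsepB
  have hAC' : A ≠ C := fun h => (disjoint_left.1 hd) (h ▸ hBC htB) htB
  have hBC' : B ≠ C := fun h => (disjoint_left.1 hd) hsA (h ▸ hAC hsA)
  have hA1 := ih' A hAC hAC' ⟨s, hsA⟩ hddA
  have hB1 := ih' B hBC hBC' ⟨t, htB⟩ hddB
  have hcard : A.card + B.card = C.card := by rw [← hAB, card_union_of_disjoint hd]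
  have hcardR : (C.card : ℝ) = (A.card : ℝ) + B.card := by exact_mod_cast hcard.symm
  have hZ : ∀ Z : Equiv.Perm T, (∀ x, Adj X Y x (Z x)) → bd Z A + bd Z B ≤ bd Z C := by
    intro Z hZ
    refine bd_sep Z hAB hd (fun x hx h => ?_) (fun x hx h => ?_)
    · exact hsep x hx (Z x) (hBC h) (fun h' => (disjoint_left.1 hd) h' h) (hZ x)
    · exact hsepB x hx (Z x) (hAC h) (fun h' => (disjoint_left.1 hd) h h') (hZ x)
  have h1 := hZ X adj_X
  have h2 := hZ Y adj_Y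
  have h1' : (bd X A : ℝ) + bd X B ≤ bd X C := by exact_mod_cast h1
  have h2' : (bd Y A : ℝ) + bd Y B ≤ bd Y C := by exact_mod_cast h2
  have h3 := mul_le_mul_of_nonneg_left h2' (by positivity : (0 : ℝ) ≤ W)
  rw [hcardR]
  refine (fn_sub he1 K W (by positivity) (by positivity)).trans ?_
  linarith

end cases

end IsoAux

open IsoAux in
theorem stmtIso (hCut : StmtCut) (hDep : StmtDep) : StmtIso := by
  classical
  intro e1 he1 he1'
  obtain ⟨K0, hK0⟩ : ∃ K0 : ℕ, ((32 / e1) * (41 + 32 / e1)) ^ 2 ≤ (K0 : ℝ) := exists_nat_ge _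
  refine ⟨K0 + 1, fun K hK W hW T _ _ X Y hHP hconn C0 hC0 hloc => ?_⟩
  have hκ : (32 / e1) * (41 + 32 / e1) ≤ √(K : ℝ) := by
    refine Real.le_sqrt_of_sq_le (hK0.trans ?_)
    exact_mod_cast (by omega : K0 ≤ K)
  have main : ∀ m : ℕ, ∀ C ⊆ C0, C.card = m → C.Nonempty → DD X Y C →
      fn e1 K W C.card ≤ (bd X C : ℝ) + W * (bd Y C : ℝ) := by
    intro m
    induction m using Nat.strong_induction_on with
    | _ m ih =>
    intro C hCC0 hm hCne hDD
    have ih' : ∀ C' ⊆ C, C' ≠ C → C'.Nonempty → DD X Y C' →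
        fn e1 K W C'.card ≤ (bd X C' : ℝ) + W * (bd Y C' : ℝ) := by
      intro C' hC' hne hne' hdd
      exact ih C'.card (hm ▸ card_lt_card (hC'.ssubset_of_ne hne)) C' (hC'.trans hCC0) rfl hne' hdd
    by_cases hsmall : C.card ≤ K * W
    · exact (fn_le _ _ _ _).trans (hloc C hCC0 hCne hDD hsmall)
    by_cases hcon : ConnOn X Y C
    · exact case_conn hCut hDep he1 he1' (by omega) hW hκ hHP hconn hDD hcon (not_le.1 hsmall) ih'
    · exact case_not_conn he1 K W hconn hDD hcon ih'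
  rcases C0.eq_empty_or_nonempty with h0 | h0
  · subst h0
    simp [bd]
  · exact (fn_ge he1 K W (by positivity)).trans (main C0.card C0 subset_rfl rfl h0 hC0)

end Vale.Agent.P201.Z.H
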