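import Vale.Agent.P201.Z.H.Defs

/-!
P201 plan B, leaf H5a: interface between the forest argument (`T1.lean`, `stmtT1 : StmtT1`) and the
assembly H5b (`T2.lean`, `stmtT_of : StmtExt → StmtT1 → StmtT`).
-/

namespace Vale.Agent.P201.Z.H

open Finset

/-- H5a (forest argument).  `X, Y` = restrictions of `E.X, E.Y` to `M.S`; `C` = a component of `M.S`
with at most one exceptional label circle (`P` = circles with nonzero label sum). -/
def StmtT1 : Prop := ∀ (p : Pat) (n : ℕ) (σ : Equiv.Perm (Cel p n)) (M : Mp σ) (E : Ext M),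
  (∀ a ∈ M.ow, a.1 = Let.t) → Nonempty M.S →
  ∃ X Y : Equiv.Perm M.S, (∀ s, E.X (some s) = some (X s)) ∧ (∀ s, E.Y (some s) = some (Y s)) ∧
    E.X none = none ∧
    ∃ C : Finset M.S, C.Nonempty ∧ (∀ s, X s ∈ C ↔ s ∈ C) ∧ (∀ s, Y s ∈ C ↔ s ∈ C) ∧
      (∀ s ∈ C, ∀ t ∈ C, Relation.ReflTransGen (Adj X Y) s t) ∧
      ∃ P : M.S → Prop,
        (∀ s ∈ C, ∀ s' ∈ C, P s → P s' → (XY X Y).SameCycle s s') ∧
        ∀ s ∈ C, ¬ P s → ∀ F : Finset M.S, (∀ t, t ∈ F ↔ (XY X Y).SameCycle s t) →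
          ∑ t ∈ F, (ht (mt σ (M.q (X t))).1 - ht (M.q (Y (X t))).1) = 0

end Vale.Agent.P201.Z.H
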